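import Vale.Agent.P144D.W.Base
import Vale.Agent.P144Z.E4.Smooth

/-!
The interior estimates for edge weights.
-/

namespace Vale.Agent.P144Z.W

open Finset Matrix

section

variable {M : ℕ} [NeZero M] {A : Gauge M}

theorem hsq_shp_le (hA : IsW A) {z : Tor M} {ρ : ℕ} (hF : Flat A z ρ) (h4 : 4 ≤ ρ)
    (g : Tor M × Fin 4 → ℝ) :
    hsq (shp A) (ρ - 4 : ℕ) (ball z (ρ - 4)) g ≤ hsq A ρ (ball z ρ) g := by
  rw [hsq_congrA (A' := A) fun e he => shp_flat hA hF e (by omega)]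
  exact E4.hsq_mono A (Nat.cast_nonneg _) (Nat.cast_le.2 (by omega)) (E3.ball_mono z (by omega)) g

theorem hsq_shp (hA : IsW A) {x z : Tor M} {ρ r : ℕ} (hF : Flat A x ρ)
    (h : tdist z x + r + 4 ≤ ρ) (t : ℝ) {g g' : Tor M × Fin 4 → ℝ}
    (hg : ∀ s : Tor M × Fin 4, tdist s.1 x ≤ ρ → g s = g' s) :
    hsq A t (ball z r) g = hsq (shp A) t (ball z r) g' := by
  rw [hsq_congrA (A := shp A) (A' := A) fun e he => shp_flat hA hF e (by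
    have := tdist_triangle e.1 z x
    omega)]
  exact E4.hsq_congr A t fun s hs => hg s (by
    have := tdist_triangle s.1 z x
    omega)

omit [NeZero M] in
theorem ratio_le {ℓ ρ : ℕ} (h : 6 ≤ ρ) (n : ℕ) :
    ((ℓ : ℝ) / (ρ - 4 : ℕ)) ^ n ≤ 3 ^ n * ((ℓ : ℝ) / ρ) ^ n := by
  have h1 : (0 : ℝ) < (ρ - 4 : ℕ) := by exact_mod_cast (by omega : 0 < ρ - 4)
  have h2 : (0 : ℝ) < ρ := by exact_mod_cast (by omega : 0 < ρ)
  have h3 : (ρ : ℝ) ≤ 3 * (ρ - 4 : ℕ) := by exact_mod_cast (by omega : ρ ≤ 3 * (ρ - 4))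
  rw [← mul_pow]
  refine pow_le_pow_left₀ (by positivity) ?_ n
  rw [← mul_div_assoc, div_le_div_iff₀ h1 h2]
  nlinarith [Nat.cast_nonneg (α := ℝ) ℓ]

theorem dfld_shp (hA : IsW A) {x z : Tor M} {ρ : ℕ} (hF : Flat A z ρ) (h : tdist x z + 1 ≤ ρ)
    (b i : Fin 2) : dfld (shp A) x b i = dfld A x b i := by
  rw [dfld, dfld, shp_flat hA hF (x, i) (by dsimp only; omega),
    shp_flat hA hF (x - uv M i, i) ((E3.near_sub i).trans h)]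

end

theorem bulk_est : ∃ C : ℝ, 1 ≤ C ∧ ∀ (M : ℕ) [NeZero M] (A : Gauge M), IsW A →
    ∀ (z : Tor M) (ℓ ρ : ℕ), 1 ≤ ℓ → 2 * ℓ ≤ ρ → 2 * ρ + 11 ≤ M → Flat A z ρ →
    ∀ g : Tor M × Fin 4 → ℝ,
    hsq A ℓ (ball z (2 * ℓ)) g ≤ C * ((ℓ : ℝ) / ρ) ^ 2 * hsq A ρ (ball z ρ) g := by
  obtain ⟨C, hC, h⟩ := P144Z.bulk_est
  refine ⟨25 * C, by linarith, fun M _ A hA z ℓ ρ hℓ hρ hM hF g => ?_⟩
  have H0 := E3.hsq_nonneg A ρ (ball z ρ) g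
  have p0 : 0 ≤ ((ℓ : ℝ) / ρ) ^ 2 * hsq A ρ (ball z ρ) g := by positivity
  by_cases h1 : 2 * ℓ + 4 ≤ ρ
  · rw [hsq_shp hA hF (by rw [tdist_self]; omega) _ fun _ _ => rfl]
    refine (h M _ (shp_sign A) z ℓ (ρ - 4) hℓ (by omega) (by omega)
      (flat_mono (flat_shp hA hF) (by omega)) g).trans ?_
    have h2 := mul_le_mul (ratio_le (ℓ := ℓ) (by omega : 6 ≤ ρ) 2) (hsq_shp_le hA hF (by omega) g)
      (E3.hsq_nonneg _ _ _ _) (by positivity)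
    have h3 := mul_le_mul_of_nonneg_left h2 (by linarith : 0 ≤ C)
    have h4 := mul_nonneg (by linarith : 0 ≤ C) p0
    nlinarith
  · refine (E4.hsq_mono A (Nat.cast_nonneg _) (Nat.cast_le.2 (by omega : ℓ ≤ ρ))
      (E3.ball_mono z hρ) g).trans (le_mul_of_one_le_left H0 ?_)
    have r0 : (0 : ℝ) < ρ := by exact_mod_cast (by omega : 0 < ρ)
    have h2 : (ρ : ℝ) ≤ 5 * ℓ := by exact_mod_cast (by omega : ρ ≤ 5 * ℓ)
    have h3 : 1 ≤ 25 * ((ℓ : ℝ) / ρ) ^ 2 := by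
      rw [div_pow, ← mul_div_assoc, le_div_iff₀ (by positivity)]
      nlinarith
    nlinarith

theorem point_est : ∃ C : ℝ, 1 ≤ C ∧ ∀ (M : ℕ) [NeZero M] (A : Gauge M), IsW A →
    ∀ (z : Tor M) (ρ : ℕ), 8 ≤ ρ → 2 * ρ + 11 ≤ M → Flat A z ρ → ∀ x, tdist x z ≤ 1 →
    ∀ g : Tor M × Fin 4 → ℝ, (∀ a, g (x, a) ^ 2 * ρ ^ 2 ≤ C * hsq A ρ (ball z ρ) g) ∧
      (∀ a, (Dm A *ᵥ g) (x, a) ^ 2 * ρ ^ 4 ≤ C * hsq A ρ (ball z ρ) g) ∧
      ∀ b i, (dfld A x b i ⬝ᵥ g) ^ 2 * ρ ^ 4 ≤ C * hsq A ρ (ball z ρ) g := by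
  obtain ⟨C, hC, h⟩ := P144Z.point_est
  refine ⟨16 * 12 ^ 4 * C, by linarith, fun M _ A hA z ρ hρ hM hF x hx g => ?_⟩
  have H0 := E3.hsq_nonneg A ρ (ball z ρ) g
  have p1 : hsq A ρ (ball z ρ) g ≤ C * hsq A ρ (ball z ρ) g := le_mul_of_one_le_left H0 hC
  have r0 : (0 : ℝ) ≤ ρ := Nat.cast_nonneg _
  by_cases h1 : 12 ≤ ρ
  · obtain ⟨a1, a2, a3⟩ := h M _ (shp_sign A) z (ρ - 4) (by omega) (by omega)
      (flat_mono (flat_shp hA hF) (by omega)) x hx g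
    have h2 := mul_le_mul_of_nonneg_left (hsq_shp_le hA hF (by omega) g) (by linarith : 0 ≤ C)
    have h3 : (ρ : ℝ) ≤ 2 * (ρ - 4 : ℕ) := by exact_mod_cast (by omega : ρ ≤ 2 * (ρ - 4))
    have k : ∀ (t : ℝ) (n : ℕ), n ≤ 4 → t ^ 2 * ((ρ - 4 : ℕ) : ℝ) ^ n ≤
        C * hsq (shp A) (ρ - 4 : ℕ) (ball z (ρ - 4)) g →
        t ^ 2 * (ρ : ℝ) ^ n ≤ 16 * 12 ^ 4 * C * hsq A ρ (ball z ρ) g := fun t n hn ht => by
      have h4 := pow_le_pow_left₀ r0 h3 n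
      have h5 : (2 : ℝ) ^ n ≤ 2 ^ 4 := pow_le_pow_right₀ one_le_two hn
      rw [mul_pow] at h4
      have h6 := mul_le_mul_of_nonneg_left (h4.trans
        (mul_le_mul_of_nonneg_right h5 (by positivity))) (sq_nonneg t)
      nlinarith
    refine ⟨fun a => k _ 2 (by omega) (a1 a), fun a => k _ 4 le_rfl ?_, fun b i => k _ 4 le_rfl ?_⟩
    · have e := Dm_pow_congr (A := shp A) (A' := A) (z := z) g 1 1
        (fun e he => shp_flat hA hF e (by omega)) x a hx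
      rw [pow_one, pow_one] at e
      rw [← e]
      exact a2 a
    · rw [← dfld_shp hA hF (by omega)]
      exact a3 b i
  · have h2 : (ρ : ℝ) ≤ 12 := by exact_mod_cast (by omega : ρ ≤ 12)
    have h3 := pow_le_pow_left₀ r0 h2 2
    have h4 := pow_le_pow_left₀ r0 h2 4
    have k : ∀ y a, tdist y z ≤ 2 → g (y, a) ^ 2 ≤ hsq A ρ (ball z ρ) g := fun y a hy =>
      (E3.sq_le_l2sq g (E3.mem_ball.2 (by omega)) a).trans (E4.l2sq_le_hsq A ρ _ g)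
    refine ⟨fun a => ?_, fun a => ?_, fun b i => ?_⟩
    · have := mul_le_mul (k x a (by omega)) h3 (by positivity) H0
      nlinarith
    · have h5 := (mul_le_mul_of_nonneg_left (E3.sq_le_l2sq (Dm A *ᵥ g)
        (E3.mem_ball.2 (by omega : tdist x z ≤ ρ)) a) (by positivity)).trans
        (E4.l2sq_D_le_hsq A ρ _ g)
      have := mul_le_mul h5 h3 (by positivity) H0
      nlinarith
    · have h5 := E3.abs_kv_dot (fun c => Real.abs_le_sqrt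
        (k (x + uv M i) c ((E3.near_add i).trans (by omega)))) b
      have h6 := E3.abs_kv_dot (fun c => Real.abs_le_sqrt
        (k (x - uv M i) c ((E3.near_sub i).trans (by omega)))) b
      have h7 : |dfld A x b i ⬝ᵥ g| ≤ 4 * √(hsq A ρ (ball z ρ) g) := by
        rw [dfld, smul_dotProduct, sub_dotProduct, smul_dotProduct, smul_dotProduct, E3.fld_dot,
          E3.fld_dot, smul_eq_mul, smul_eq_mul, smul_eq_mul, abs_mul]
        refine (mul_le_mul_of_nonneg_left (abs_sub _ _) (abs_nonneg _)).trans ?_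
        rw [abs_mul, abs_mul, flat_abs hA hF (e := (x, i)) (by dsimp only; omega),
          flat_abs hA hF (e := (x - uv M i, i)) ((E3.near_sub i).trans (by omega)),
          abs_of_pos (by norm_num : (0 : ℝ) < 1 / 2)]
        linarith
      have h8 := pow_le_pow_left₀ (abs_nonneg _) h7 2
      rw [sq_abs, mul_pow, Real.sq_sqrt H0] at h8
      have := mul_le_mul h8 h4 (by positivity) (by positivity)
      nlinarith

theorem test_est : ∃ C : ℝ, 1 ≤ C ∧ ∀ (M : ℕ) [NeZero M] (A : Gauge M), IsW A →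
    ∀ (x z : Tor M) (ℓ : ℕ), 1 ≤ ℓ → 8 * ℓ + 19 ≤ M → Flat A x (4 * ℓ + 8) → tdist z x ≤ 2 * ℓ →
    (∀ a, hsq A ℓ (ball z (2 * ℓ)) (tf0 A x a) ≤ C * ℓ ^ 2) ∧
      ∀ b i, hsq A ℓ (ball z (2 * ℓ)) (tf1 A x b i) ≤ C * ℓ ^ 4 := by
  obtain ⟨C, hC, h⟩ := P144Z.test_est
  refine ⟨C, hC, fun M _ A hA x z ℓ hℓ hM hF hz => ?_⟩
  obtain ⟨h1, h2⟩ := h M _ (shp_sign A) x z ℓ hℓ hM (flat_shp hA hF) hz
  refine ⟨fun a => le_of_eq_of_le (hsq_shp hA hF (by omega) _ fun s hs => ?_) (h1 a),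
    fun b i => le_of_eq_of_le (hsq_shp hA hF (by omega) _ fun s hs => ?_) (h2 b i)⟩
  · rw [tf0, tf0, trans_shp hA hF hs]
  · rw [tf1, tf1, trans_shp hA hF hs]

theorem taylor_est : ∃ C : ℝ, 1 ≤ C ∧ ∀ (M : ℕ) [NeZero M] (A : Gauge M), IsW A →
    ∀ (x z : Tor M) (ℓ ρ : ℕ), 1 ≤ ℓ → 20 * ℓ ≤ ρ → 2 * ρ + 11 ≤ M → Flat A x ρ →
    tdist z x ≤ 2 * ℓ → ∀ g : Tor M × Fin 4 → ℝ,
    hsq A ℓ (ball z (2 * ℓ)) (g - ∑ a, (fld x a ⬝ᵥ g) • tf0 A x a)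
      ≤ C * ((ℓ : ℝ) / ρ) ^ 4 * hsq A ρ (ball x ρ) g ∧
    hsq A ℓ (ball z (2 * ℓ)) (g - ∑ a, (fld x a ⬝ᵥ g) • tf0 A x a -
        ∑ b, ∑ i, (dfld A x b i ⬝ᵥ g) • tf1 A x b i)
      ≤ C * ((ℓ : ℝ) / ρ) ^ 6 * hsq A ρ (ball x ρ) g := by
  obtain ⟨C, hC, h⟩ := P144Z.taylor_est
  refine ⟨3 ^ 6 * C, by linarith, fun M _ A hA x z ℓ ρ hℓ hρ hM hF hz g => ?_⟩
  obtain ⟨h1, h2⟩ := h M _ (shp_sign A) x z ℓ (ρ - 4) hℓ (by omega) (by omega)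
    (flat_mono (flat_shp hA hF) (by omega)) hz g
  have k : ∀ n ≤ 6, C * ((ℓ : ℝ) / (ρ - 4 : ℕ)) ^ n * hsq (shp A) (ρ - 4 : ℕ) (ball x (ρ - 4)) g ≤
      3 ^ 6 * C * ((ℓ : ℝ) / ρ) ^ n * hsq A ρ (ball x ρ) g := fun n hn => by
    have h3 := mul_le_mul ((ratio_le (ℓ := ℓ) (by omega : 6 ≤ ρ) n).trans
      (mul_le_mul_of_nonneg_right (pow_le_pow_right₀ (by norm_num) hn) (by positivity)))
      (hsq_shp_le hA hF (by omega) g) (E3.hsq_nonneg _ _ _ _) (by positivity)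
    have h4 := mul_le_mul_of_nonneg_left h3 (by linarith : 0 ≤ C)
    linarith
  refine ⟨le_of_eq_of_le (hsq_shp hA hF (by omega) _ fun s hs => ?_) (h1.trans (k 4 (by omega))),
    le_of_eq_of_le (hsq_shp hA hF (by omega) _ fun s hs => ?_) (h2.trans (k 6 le_rfl))⟩
  · simp only [Pi.sub_apply, Finset.sum_apply, Pi.smul_apply, tf0, trans_shp hA hF hs]
  · simp only [Pi.sub_apply, Finset.sum_apply, Pi.smul_apply, tf0, tf1, trans_shp hA hF hs,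
      dfld_shp hA hF (x := x) (by rw [tdist_self]; omega)]

end Vale.Agent.P144Z.W
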