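import Vale.Agent.P144D.W.Cor
import Vale.Agent.P144Z.R6.Main

/-!
The local quantities of the corrected flow only depend on the geometry nearby.
-/

namespace Vale.Agent.P144Z

open Finset Matrix R6

set_option linter.unusedSectionVars false

/-- The correction vanishes on the sets without flux around them. -/
def Cor.Off {M : ℕ} (u : Cor M) (A : Gauge M) : Prop :=
  ∀ X : Finset (Tor M), (∀ x ∈ X, flux A x = 1) → ∀ n, u X n = 0

namespace Geo

/-- The scalar constants of the sets of size at most `T` that see the point `f`. -/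
noncomputable def sigC (g : Geo) (L : ℕ) (q : Par) (u : Cor g.M) (j : ℕ) (f : g.P) (T : ℕ) : ℝ :=
  ∑ U ∈ univ.filter (fun U : Finset g.P =>
      stein U ≤ T ∧ ∃ x ∈ U, tdist f x ≤ 2 * stein U + 3 * sc L j),
    aug (Ev.val (g.csC L q u j U))

theorem sigC_zero (g : Geo) (L : ℕ) (q : Par) (j : ℕ) (f : g.P) (T : ℕ) :
    g.sigC L q 0 j f T = g.sig L q j f T := by rw [sigC, csC_zero, sig]

variable {g g' : Geo} {u : Cor g.M} {u' : Cor g'.M} {c : g.P} {c' : g'.P} {T : ℕ}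

theorem MatchC.toMatch (hm : MatchC g g' u u' c c' T) : Match g g' c c' T := ⟨hm.le, hm.le', hm.fl⟩

theorem MatchC.self (hm : MatchC g g' u u' c c' T) : MatchC g' g' u' u' c' c' T :=
  ⟨hm.le', hm.le', fun f _ => by rw [shf_self], ⟨fun _ => 1, fun _ => Or.inl rfl,
    fun x i _ _ => by rw [shf_self, one_mul, one_mul]⟩, fun X _ n => by
      rw [show X.image (shf c' c') = X from image_shf_self c' X]
      simp only [shf_self]⟩

theorem HinC_RI (hg : ∀ k, (g.src k).Ok) (hu : u.Ok) (q : Par) (X : Finset g.P) :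
    g.HinC q u X ∈ g.RI X :=
  ⟨fun n => Subalgebra.add_mem _ ((Hin_RI hg q X).1 n)
    (Subalgebra.smul_mem _ (Subalgebra.one_mem _) _), fun n n' e => by
      rw [HinC, HinC, (Hin_RI hg q X).2 n n' e, hu.dep X n n' fun e' h1 h2 => e e' ⟨h1, h2⟩]⟩

theorem W0C_el (hg : ∀ k, (g.src k).Ok) (hu : u.Ok) (q : Par) (U : Finset g.P) :
    g.W0C q u U ∈ g.el U :=
  Subalgebra.sum_mem _ fun _ hU' => Subalgebra.smul_mem _ (lg_mem (E0_el _ (A2.exp_mem_fin _
    (Subalgebra.sum_mem _ fun X hX => RI_mono ((mem_powerset.1 hX).trans (mem_powerset.1 hU'))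
      (HinC_RI hg hu q X))))) _

theorem loc_initC (hg : ∀ k, (g.src k).Ok) (hu : u.Ok) (q : Par) : g.Loc (g.initC q u) where
  K X := by
    have h1 := (loc_init hg q).K X
    have h2 := W0_el hg q X
    have h3 := W0C_el hg hu q X
    have e : (g.initC q u).K X = (g.init q).K X + (g.W0C q u X - g.noF (g.W0C q u X))
        - (g.W0 q X - g.noF (g.W0 q X)) := by
      simp only [initC, init]
      abel
    rw [e]
    exact Subalgebra.sub_mem _ (Subalgebra.add_mem _ h1 (Subalgebra.sub_mem _ h3 (noF_el h3)))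
      (Subalgebra.sub_mem _ h2 (noF_el h2))
  v := (loc_init hg q).v

end Geo

namespace W

namespace R6

variable {g g' : Geo} {u : Cor g.M} {u' : Cor g'.M} {L : ℕ} {q : Par} {c : g.P} {c' : g'.P}
  {T : ℕ} {κ : g.K → Option g'.K} {m : FMap g g'}

/-- An identification of squares that respects the corrections. -/
structure IdC (u : Cor g.M) (u' : Cor g'.M) (q : Par) (c : g.P) (c' : g'.P) (T : ℕ)
    (κ : g.K → Option g'.K) (m : FMap g g') : Prop where
  id : Id q syId c c' T κ m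
  ok : u.Ok
  cor : ∀ X, m.In 0 X → ∀ n', u' (X.image m.φ) n' = u X (n' ∘ m.η)

theorem IdC.W0 (h : IdC u u' q c c' T κ m) {U : Finset g.P} (hU : m.In 0 U) :
    g'.W0C q u' (U.image m.φ) = m.Φ (g.W0C q u U) :=
  Cl_hom _ _ (h.id.ini.ini h.id.good).Φ₀ (funext fun _ => m.Φ_one)
    (fun _ _ => funext fun _ => m.Φ_mul _ _) m.Φ m.Φ_one m.Φ_mul m.φ U hU.injOn (g.RI U)
    (fun _ hF => (h.id.ini.ini h.id.good).E0 _ hU hF) _ _
    (fun X hX => Geo.RI_mono hX (Geo.HinC_RI h.id.ini.ok h.ok q X))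
    fun X hX => funext fun n' => by
      change _ = m.Φ (g.HinC q u X (n' ∘ m.η))
      rw [Geo.HinC, Geo.HinC, map_add, map_smul, m.Φ_one, h.cor X (hU.sub hX),
        h.id.ini.hin h.id.good (hU.sub hX)]

theorem IdC.init (h : IdC u u' q c c' T κ m) :
    h.id.good.agree.Rel 1 (g.initC q u) (g'.initC q u') where
  loc := Geo.loc_initC h.id.ini.ok h.ok q
  K X hX := by
    have h0 : m.In 0 X := hX.le (by omega)
    have h1 := (h.id.ini.ini h.id.good).init.K X hX
    have h2 := (h.id.ini.ini h.id.good).W0 h0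
    simp only [Geo.init, map_sub] at h1
    rw [h2, h.id.good.agree.noF, sub_right_inj] at h1
    simp only [Geo.initC, map_sub]
    rw [h1]
    exact congrArg₂ _ (congrArg₂ _ (h.W0 h0) ((congrArg _ (h.W0 h0)).trans (m.Φ_noF _))) rfl
  v := (h.id.ini.ini h.id.good).init.v
  z := (h.id.ini.ini h.id.good).init.z

theorem IdC.flow (h : IdC u u' q c c' T κ m) (hL : 2 ≤ L) :
    ∀ j, (∀ i < j, ∀ k k', κ k = some k' → (i < g'.J ↔ i < g.J)) →
      h.id.good.agree.Rel (2 * sc L j) (g.flowC L q u j) (g'.flowC L q u' j)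
  | 0, _ => h.init.le (by have := eight_le_sc (by omega : 1 ≤ L) 0; omega)
  | j + 1, hJ => (h.flow hL j fun i hi => hJ i (by omega)).succ hL
      (fun k k' e _ => hJ j (by omega) k k' (h.id.hκ ▸ e)) 0

theorem IdC.cs (h : IdC u u' q c c' T κ m) (hL : 2 ≤ L) (j : ℕ)
    (hJ : ∀ i < j, ∀ k k', κ k = some k' → (i < g'.J ↔ i < g.J)) {U : Finset g.P}
    (hU : m.In (sc L j + 3) U) : g'.csC L q u' j (U.image m.φ) = m.Φ (g.csC L q u j U) := by
  cases j with
  | zero => exact (congrArg g'.noF (h.W0 (hU.le (Nat.zero_le _)))).trans (m.Φ_noF _)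
  | succ j =>
    exact (congrArg g'.noF ((h.flow hL j fun i hi => hJ i (by omega)).rem' hL hU).1).trans
      (m.Φ_noF _)

/-- Translation with a change of gauge. -/
theorem exists_trC (hg : ∀ k, (g.src k).Ok) (hg' : ∀ k, (g'.src k).Ok) (hu : u.Ok)
    (hq : P144.IsPotential q.V) (hR : 2 * (q.R + 1) ≤ g.M) (hR' : 2 * (q.R + 1) ≤ g'.M)
    (hm : Geo.MatchC g g' u u' c c' T) (hT : 1 ≤ T) (hs : Srcs syId c c' T κ) :
    ∃ m : FMap g g', IdC u u' q c c' T κ m ∧
      ∀ x i, tdist x c ≤ T → tdist (x + uv g.M i) c ≤ T →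
        g'.A (shf c c' x, i) = m.ε x * m.ε (x + uv g.M i) * g.A (x, i) := by
  obtain ⟨ε, hε, h⟩ := hm.gauge
  let m := FMap.ball syId c c' hm.le hm.le' hT hε (gauge_stp hm.le hm.le' hT h) κ hs.pos hs.kinj
  have hd : ∀ {ℓ x y}, m.dep (ℓ + 1) x → tdist y x ≤ ℓ → tdist y c ≤ T := fun hx hy =>
    m.mono (m := 0) hx (by omega)
  refine ⟨m, ⟨⟨⟨fun {r x} hx => ⟨fun h1 f hf => ?_, fun h1 f' hf => ?_⟩, fun hx hy => ?_,
    fun hx hy => bφ_lft hm.le hm.le' (FMap.dep0 hx) (hd hx hy), hs.on _ _, hs.dir _ _,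
    fun _ _ => hs.surj _⟩, goodI_ball hg hg' hq hR hR' hs, rfl, rfl, fun _ _ => Iff.rfl,
    rfl⟩, hu, fun X hX n' => (hm.cor X hX n').trans (congrArg _ (funext fun e => ?_))⟩, h⟩
  · rw [← hm.fl f (hd hx hf)]
    exact h1 _ ((m.iso (hd hx hf) (FMap.dep0 hx)).le.trans hf)
  · obtain ⟨f, hf', rfl⟩ := m.onto (Iso.le hx (Nat.le_succ r)) hf
    exact (hm.fl f (hd hx hf')).trans (h1 f hf')
  · exact trans_iso hm.le hm.le' hε h (FMap.dep0 hx) (hd hx hy)
  · exact congrArg n' (und_dr _ _).symm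

/-- Both geometries are identified with the geometry with one source. -/
theorem exists_keep (hg : g.OkW) (hg' : g'.OkW) (hu : u.Ok) (hq : q.Ok)
    (hR : 16 * (q.R + 1) ≤ g.M) (hR' : 16 * (q.R + 1) ≤ g'.M) (hm : Geo.MatchC g g' u u' c c' T)
    (hT : 1 ≤ T) {j : ℕ} {k : g.K} {k' : g'.K} (hk : Geo.MatchS g g' c c' k k' j)
    (hY : ∀ v ∈ (g.src k).Y, Sm g.M g'.M v) (hy : tdist (g.src k).y c ≤ T) :
    ∃ m, IdC (g' := geo1 g'.M g'.A (g'.src k') g'.J) u u' q c c' T (keep k) m :=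
  (exists_trC (g' := geo1 g'.M g'.A (g'.src k') g'.J) hg.src (fun _ => hg'.src k') hu hq.pot
    (by omega) (show _ ≤ g'.M by omega) ⟨hm.le, hm.le', hm.fl, hm.gauge, hm.cor⟩ hT
    (srcs_keep hk hY hy)).imp fun _ h => h.1

/-- Squares where the weights are signs with the same fluxes. -/
theorem matchC_sign (hA : IsW g.A) (hA' : IsSign g'.A) (hT : 1 ≤ T) (h1 : 4 * T + 1 ≤ g.M)
    (h1' : 4 * T + 1 ≤ g'.M) (hf : ∀ f, tdist f c ≤ T → flux g'.A (shf c c' f) = flux g.A f)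
    (hu : ∀ X : Finset g.P, (∀ x ∈ X, tdist x c ≤ T) → ∀ n, u X n = 0) :
    Geo.MatchC g g' u 0 c c' T := by
  have h2 : ∀ f, tdist f c ≤ T → |flux g.A f| = 1 := fun f h => by
    rw [← hf f h]
    exact C.abs_sign (A := flux g'.A) (fun f => G.sign_mul (G.sign_mul (G.sign_mul (hA' _)
      (hA' _)) (hA' _)) (hA' _)) _
  obtain ⟨ε, hε, h⟩ := match_gauge (g := geoA g.M (shp g.A)) (c := c) (c' := c') (T := T)
    (shp_sign g.A) hA' ⟨h1, h1', fun f h => (hf f h).trans (flux_shp hA (h2 f h)).symm⟩ hT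
  refine ⟨h1, h1', hf, ⟨ε, hε, fun x i hx hx' => (h x i hx hx').trans ?_⟩,
    fun X hX n => (hu X hX _).symm⟩
  have h3 := face_sign hA (h2 x hx)
  congr 1
  fin_cases i
  · exact shp_eq h3.1
  · exact shp_eq h3.2.2.2

theorem matchC_flat (hA : IsW g.A) (hu : u.Off g.A) (hA' : IsSign g'.A) (hT : 1 ≤ T)
    (h1 : 4 * T + 1 ≤ g.M) (h1' : 4 * T + 1 ≤ g'.M) (hf : Flat g.A c T)
    (hf' : ∀ f, tdist f c ≤ T → flux g'.A (shf c c' f) = 1) : Geo.MatchC g g' u 0 c c' T :=
  matchC_sign hA hA' hT h1 h1' (fun f h => (hf' f h).trans (hf f h).symm)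
    fun X hX => hu X fun x hx => hf x (hX x hx)

/-- The same weights with two sign fields that have the same fluxes. -/
theorem matchC_mul {M : ℕ} [NeZero M] {w B B' : Gauge M} (hB : IsSign B) (hB' : IsSign B')
    {c : Tor M} (hT : 1 ≤ T) (h1 : 4 * T + 1 ≤ M) (hf : ∀ f, tdist f c ≤ T → flux B' f = flux B f) :
    (∀ f, tdist f c ≤ T → flux (w * B') (shf c c f) = flux (w * B) f) ∧
    (∃ ε : Tor M → ℝ, IsSign ε ∧ ∀ x i, tdist x c ≤ T → tdist (x + uv M i) c ≤ T →
      (w * B') (shf c c x, i) = ε x * ε (x + uv M i) * (w * B) (x, i)) ∧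
    ∀ (u : Cor M) (X : Finset (Tor M)) n', u (X.image (shf c c)) n' =
      u X fun e => n' (shf c c e.1, e.2) := by
  obtain ⟨ε, hε, h⟩ := match_gauge (g := geoA M B) (g' := geoA M B') (c := c) (c' := c) (T := T)
    hB hB' ⟨h1, h1, fun f h => (congrArg _ (shf_self c f)).trans (hf f h)⟩ hT
  have e : ∀ (D : Gauge M) f, flux (w * D) f = flux w f * flux D f := fun D f => by
    simp only [flux, Pi.mul_apply]
    ring
  refine ⟨fun f h => by rw [shf_self, e, e, hf f h], ⟨ε, hε, fun x i hx hx' => ?_⟩,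
    fun u X n => ?_⟩
  · have h2 : B' (shf c c x, i) = ε x * ε (x + uv M i) * B (x, i) := h x i hx hx'
    rw [Pi.mul_apply, h2, shf_self, Pi.mul_apply]
    ring
  · rw [show X.image (shf c c) = X from image_shf_self c X]
    simp only [shf_self]

theorem pn_noB_le {g : Geo} {u : Cor g.M} {L : ℕ} {q : Par} (hL : 8 ≤ L) (hg : g.OkW)
    (hu : u.Ok) (hf : u.Off g.A) (hq : q.Ok)
    (hR : 16 * (q.R + 1) ≤ g.M) (j : ℕ) {h : ℝ} (hh : 0 < h) {X : Finset g.P} {x : g.P}
    (hx : x ∈ X) (hX : g.nd (sc L j) X) :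
    g.pn (sc L j) h 1 X (g.noB ((g.flowC L q u j).K X)) ≤
        (geo0 g.M).pn (sc L j) h 1 X (((geo0 g.M).flow L q 0 j).K X) ∧
      g.pn (sc L j) h 1 X (g.noB ((g.flowC L q u j).car X)) ≤
        (geo0 g.M).pn (sc L j) h 1 X (((geo0 g.M).flow L q 0 j).car X) := by
  have h8 := eight_le_sc (by omega : 1 ≤ L) j
  have hT : 1 ≤ 2 * stein X + 3 * sc L j := by omega
  obtain ⟨m, hm, hA⟩ := exists_trC (g' := geo0 g.M) (u' := 0) (q := q) (c := x) (c' := x) hg.src
    (ok_geo0 _).src hu hq.pot (by omega) (show _ ≤ g.M by omega)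
    (matchC_flat hg.sign hf (ok_geo0 _).sign (by omega) hX.2 hX.2 (hX.1 x hx)
      fun f _ => flux_one _) hT (srcs_none _ _ _ _)
  let m' := FMap.ball (g := geo0 g.M) (g' := g) syId x x hX.2 hX.2 hT m.sε
    (gauge_stp (g := geo0 g.M) (g' := g) hX.2 hX.2 hT fun (y : g.P) i hy hy' => by
      have h1 : (1 : ℝ) = m.ε y * m.ε (y + uv g.M i) * g.A (y, i) := hA y i hy hy'
      have h2 := m.εε y
      have h3 := m.εε (y + uv g.M i)
      change g.A (shf x x y, i) = m.ε y * m.ε (y + uv g.M i) * 1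
      rw [shf_self]
      grind) (fun k => isEmptyElim k) (fun k => isEmptyElim k) fun k => isEmptyElim k
  have e1 : X.image m.φ = X := hm.id.hφ ▸ image_shf_self x X
  have e2 : Finset.image m'.φ X = X := image_shf_self x X
  have e3 : ∀ F, m'.Φ (m.Φ F) = g.noB F := FMap.Φ_Φ hm.id.hy rfl (fun k => by rw [hm.id.hκ])
    (fun y => by rw [hm.id.hφ]; exact (shf_self x _).trans (shf_self x y))
    fun y => by rw [hm.id.hφ]; exact congrArg m.ε (shf_self x y)
  have h0 : tdist x x = 0 := tdist_self x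
  have h1 := hm.flow (L := L) (by omega) j (by simp)
  rw [Geo.flowC_zero] at h1
  have h2 : m.In (2 * sc L j) X := hm.id.In hx (by omega)
  have h3 : m'.In (2 * sc L j + 4) X := fun u hu => by
    have := tdist_le_stein hu hx
    change tdist (M := g.M) u x + _ ≤ _
    omega
  have h4 : ∀ F ∈ g.el X, g.pn (sc L j) h 1 X (g.noB F) ≤ (geo0 g.M).pn (sc L j) h 1 X (m.Φ F) := by
    intro F hF
    have := FMap.pn_le (m := m') rfl (by omega) hh one_pos one_pos h3 (e1 ▸ m.Φ_el hF)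
    rwa [e2, e3] at this
  have h5 := h1.K X h2
  have h6 := h1.car (by omega) h2
  exact ⟨(h4 _ (h1.loc.K X)).trans_eq (congrArg _ (h5.symm.trans (congrArg _ e1))),
    (h4 _ (h1.loc.car X)).trans_eq (congrArg _ (h6.symm.trans (congrArg _ e1)))⟩

end R6

namespace Geo

open Vale.Agent.P144Z.Geo R6

variable {g g' : Geo} {u : Cor g.M} {u' : Cor g'.M} {L : ℕ} {q : Par} {c : g.P} {c' : g'.P}
  {T : ℕ}

/-- The scalar constants only depend on the geometry nearby. -/
theorem ag_csC (hL : 8 ≤ L) (hg : g.OkW) (hg' : g'.OkW) (hu : u.Ok) (hu' : u'.Ok) (hq : q.Ok)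
    (hR : 16 * (q.R + 1) ≤ g.M)
    (hR' : 16 * (q.R + 1) ≤ g'.M) (hm : MatchC g g' u u' c c' T) (j : ℕ) {U : Finset g.P} {x : g.P}
    (hx : x ∈ U) (hU : tdist x c + 2 * stein U + 3 * sc L j ≤ T) :
    aug (Ev.val (g'.csC L q u' j (U.image (shf c c')))) = aug (Ev.val (g.csC L q u j U)) := by
  have h8 := eight_le_sc (by omega : 1 ≤ L) j
  obtain ⟨m, h, -⟩ := exists_trC (g' := geoA g'.M g'.A) (u' := u') hg.src
    (fun k => isEmptyElim k) hu hq.pot (by omega) (show _ ≤ g'.M by omega)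
    ⟨hm.le, hm.le', hm.fl, hm.gauge, hm.cor⟩ (by omega) (srcs_none _ _ _ _)
  obtain ⟨m', h', -⟩ := exists_trC (g' := geoA g'.M g'.A) (u' := u') hg'.src
    (fun k => isEmptyElim k) hu' hq.pot (by omega) (show _ ≤ g'.M by omega)
    ⟨hm.le', hm.le', hm.self.fl, hm.self.gauge, hm.self.cor⟩ (by omega) (srcs_none _ _ _ _)
  obtain ⟨e1, e2⟩ := shf_le hm.toMatch (by omega) hx (by omega)
  have h1 := h.cs (L := L) (by omega) j (by simp) (h.id.In hx (by omega))
  have h2 := h'.cs (L := L) (by omega) j (by simp) (h'.id.In (mem_image_of_mem (shf c c') hx) (by omega))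
  have e3 : (U.image (shf c c')).image m'.φ = U.image m.φ := by
    rw [h'.id.hφ, h.id.hφ]
    exact image_shf_self _ _
  rw [e3] at h2
  rw [← m.aug_Φ, ← m'.aug_Φ, ← h1, ← h2]

/-- The same for the coefficient of a source. -/
theorem ag_cs_srcC (hL : 8 ≤ L) (hg : g.OkW) (hg' : g'.OkW) (hu : u.Ok) (hu' : u'.Ok) (hq : q.Ok)
    (hR : 16 * (q.R + 1) ≤ g.M)
    (hR' : 16 * (q.R + 1) ≤ g'.M) (hm : MatchC g g' u u' c c' T) (j : ℕ) {k : g.K} {k' : g'.K}
    (hk : MatchS g g' c c' k k' j) (hY : ∀ v ∈ (g.src k).Y, 4 * zd v 0 < min g.M g'.M)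
    {U : Finset g.P} {x : g.P} (hx : x ∈ U) (hy : (g.src k).y ∈ U)
    (hU : tdist x c + 2 * stein U + 3 * sc L j ≤ T) :
    aug (g'.db k' (Ev.val (g'.csC L q u' j (U.image (shf c c'))))) =
      aug (g.db k (Ev.val (g.csC L q u j U))) := by
  have h8 := eight_le_sc (by omega : 1 ≤ L) j
  have hY' : ∀ v ∈ (g.src k).Y, Sm g.M g'.M v := fun v hv => by
    have := hY v hv
    simp only [zd, Prod.fst_zero, Prod.snd_zero, sub_zero] at this
    rw [Sm]
    omega
  have hy' : tdist (g.src k).y c + stein U ≤ T := by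
    have h1 := tdist_le_stein hy hx
    have h2 := tdist_triangle (g.src k).y x c
    omega
  obtain ⟨e1, e2⟩ := shf_le hm.toMatch (by omega) hx (by omega)
  obtain ⟨m, h⟩ := exists_keep hg hg' hu hq hR hR' hm (by omega) hk hY' (by omega)
  obtain ⟨m', h'⟩ := exists_keep hg' hg' hu' hq hR' hR' hm.self (by omega) (matchS_self k' j)
    (fun v hv => (hY' v (hk.Y ▸ hv)).right)
    (by rw [hk.y, (shf_le hm.toMatch (by omega) hy hy').1]; omega)
  have h1 := h.cs (L := L) (by omega) j (fun i hi _ _ _ => (hk.J i hi).symm) (h.id.In hx (by omega))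
  have h2 := h'.cs (L := L) (by omega) j (fun _ _ _ _ _ => Iff.rfl)
    (h'.id.In (mem_image_of_mem (shf c c') hx) (by omega))
  have e3 : (U.image (shf c c')).image m'.φ = U.image m.φ := by
    rw [h'.id.hφ, h.id.hφ]
    exact image_shf_self _ _
  rw [e3] at h2
  have k1 : m.κ k = some () := h.id.hκ ▸ keep_self k
  have k2 : m'.κ k' = some () := h'.id.hκ ▸ keep_self k'
  have h3 := FMap.aug_db_Φ k1 (g.csC L q u j U)
  have h4 := FMap.aug_db_Φ k2 (g'.csC L q u' j (U.image (shf c c')))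
  rw [h.id.ini.s1 k1, one_mul, ← h1] at h3
  rw [h'.id.ini.s1 k2, one_mul, ← h2] at h4
  exact h4.symm.trans h3

theorem ag_zC (hL : 8 ≤ L) (hg : g.OkW) (hg' : g'.OkW) (hu : u.Ok) (hu' : u'.Ok) (hq : q.Ok)
    (hR : 16 * (q.R + 1) ≤ g.M)
    (hR' : 16 * (q.R + 1) ≤ g'.M) (hm : MatchC g g' u u' c c' T) (j : ℕ) {k : g.K} {k' : g'.K}
    (hk : MatchS g g' c c' k k' j) (hon : (g.src k).on = true)
    (hU : tdist (g.src k).y c + 3 * sc L j ≤ T) :
    (g'.flowC L q u' j).z k' = (g.flowC L q u j).z k := by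
  have h8 := eight_le_sc (by omega : 1 ≤ L) j
  have hY' : ∀ v ∈ (g.src k).Y, Sm g.M g'.M v := fun v hv => by
    rw [((hg.src k).en hon).1, mem_insert, mem_singleton] at hv
    rcases hv with rfl | rfl
    · simp [Sm]
    · have := sm_stz hm.le hm.le' (by omega) (dr (g.src k).dir)
      revert this
      generalize (g.src k).dir = i
      fin_cases i <;> exact id
  have e1 := (shf_le hm.toMatch (by omega) (mem_singleton_self (g.src k).y)
    (by rw [stein_singleton]; omega)).1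
  obtain ⟨m, h⟩ := exists_keep hg hg' hu hq hR hR' hm (by omega) hk hY' (by omega)
  obtain ⟨m', h'⟩ := exists_keep hg' hg' hu' hq hR' hR' hm.self (by omega) (matchS_self k' j)
    (fun v hv => (hY' v (hk.Y ▸ hv)).right) (by rw [hk.y]; omega)
  have k1 : m.κ k = some () := h.id.hκ ▸ keep_self k
  have k2 : m'.κ k' = some () := h'.id.hκ ▸ keep_self k'
  have h1 := (h.flow (L := L) (by omega) j fun i hi _ _ _ => (hk.J i hi).symm).z k () k1
    ((h.id.dep _ _).2 (by omega))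
  have h2 := (h'.flow (L := L) (by omega) j fun _ _ _ _ _ => Iff.rfl).z k' () k2
    ((h'.id.dep _ _).2 (by rw [hk.y]; omega))
  rw [show h.id.good.agree.s k = 1 from h.id.ini.s1 k1, one_mul] at h1
  rw [show h'.id.good.agree.s k' = 1 from h'.id.ini.s1 k2, one_mul] at h2
  exact h2.symm.trans h1

theorem ag_sigC (hL : 8 ≤ L) (hg : g.OkW) (hg' : g'.OkW) (hu : u.Ok) (hu' : u'.Ok) (hq : q.Ok)
    (hR : 16 * (q.R + 1) ≤ g.M)
    (hR' : 16 * (q.R + 1) ≤ g'.M) (j T₀ : ℕ) (hm : MatchC g g' u u' c c' T)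
    (hT : 4 * T₀ + 6 * sc L j ≤ T) : g'.sigC L q u' j c' T₀ = g.sigC L q u j c T₀ := by
  have h8 := eight_le_sc (by omega : 1 ≤ L) j
  let a := ballIso syId c c' hm.le hm.le' (by omega)
  have hc : a.dep T c := by
    change _ + _ ≤ _
    rw [tdist_self, zero_add]
  have hW : a.In T₀ (ball c (3 * T₀ + 3 * sc L j)) := Iso.in_ball hc (by omega)
  have k : ∀ {M : ℕ} [NeZero M] (f : Tor M) (U : Finset (Tor M)),
      (stein U ≤ T₀ ∧ ∃ x ∈ U, tdist f x ≤ 2 * stein U + 3 * sc L j) →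
      U ⊆ ball f (3 * T₀ + 3 * sc L j) := fun f U ⟨h1, x, hx, h2⟩ u hu => by
    have h3 := tdist_le_stein hu hx
    have h4 := tdist_triangle u x f
    rw [tdist_comm] at h2
    exact mem_ball.2 (by omega)
  rw [sigC, sigC, Iso.sum_sets (hW.le (Nat.zero_le _)) (k c) (fun U hU => by
    rw [Iso.image_ball (Iso.le hc (by omega)), show a.φ c = c' from bφ_self syId c c']
    exact k c' U hU) fun U hU => ?_]
  · refine sum_congr rfl fun U hU => ?_
    obtain ⟨h1, x, hx, h2⟩ := (mem_filter.1 hU).2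
    rw [tdist_comm] at h2
    exact ag_csC hL hg hg' hu hu' hq hR hR' hm j hx (by omega)
  · rw [Iso.small_iff (hW.sub hU), exists_mem_image]
    refine and_congr_right fun h1 => exists_congr fun x => and_congr_right fun hx => ?_
    have h2 := mem_ball.1 (hU hx)
    obtain ⟨e1, e2⟩ := shf_le hm.toMatch (by omega) hx (by omega)
    rw [tdist_comm c, tdist_comm c', ← e1, ← e2]
    rfl

/-- The bulk part of every flow is small. -/
theorem ag_bfC : ∃ C : ℝ, 1 ≤ C ∧ ∀ L : ℕ, 8 ≤ L → ∀ (q : Par) (η : ℝ), q.Ok → Bulk L q η →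
    ∀ g : Geo, g.OkW → ∀ u : Cor g.M, u.Ok → u.Off g.A → 16 * (q.R + 1) ≤ g.M → ∀ j,
    16 * sc L j ≤ g.M →
      Anch (sc L j) L (g.bf (sc L j) (hb L j) (g.flowC L q u j))
        (C * Real.exp L * η * th L ^ j) := by
  obtain ⟨C, hC, h⟩ := anch_car
  refine ⟨C + 1, by linarith, fun L hL q η hq hB g hg u hu hf hR j hM z => ?_⟩
  have h1 := h L hL q η hB g.M hR j hM z
  obtain ⟨ν, ζ, hB⟩ := hB
  have h2 := ((hB j).2 g.M hR hM).2 z
  have hh : 0 < hb L j := by
    have : (0 : ℝ) < L := by exact_mod_cast (by omega : 0 < L)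
    rw [hb]
    positivity
  have h3 : 0 ≤ η * th L ^ j := le_trans (by positivity) (hB j).1
  have h4 : η * th L ^ j ≤ Real.exp L * (η * th L ^ j) :=
    le_mul_of_one_le_left h3 (Real.one_le_exp (Nat.cast_nonneg L))
  refine le_trans ?_ ((add_le_add h2 h1).trans (by linarith))
  rw [← sum_add_distrib]
  refine sum_le_sum fun X hX => ?_
  obtain ⟨x, hx, -⟩ := (mem_filter.1 hX).2
  rw [← add_mul]
  refine mul_le_mul_of_nonneg_right ?_ (Real.exp_nonneg _)
  unfold bf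
  split_ifs with h5
  · exact add_le_add (R6.pn_noB_le hL hg hu hf hq hR j hh hx h5).1
      (R6.pn_noB_le hL hg hu hf hq hR j hh hx h5).2
  · exact add_nonneg (RN.pn_nonneg (g := geo0 g.M) _) (RN.pn_nonneg (g := geo0 g.M) _)

end Geo

end W

end Vale.Agent.P144Z
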