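import Vale.Agent.P144D.W.Rk

/-!
Change of scale near isolated fluxes for edge weights.
-/

namespace Vale.Agent.P144Z.W

open Finset Matrix Filter Topology

namespace R4a

open Vale.Agent.P144Z.R4a Vale.Agent.P144Z.RN

theorem shr_mono {M : ℕ} [NeZero M] {A : Gauge M} {ℓ ℓ' : ℕ} {z : Tor M} {κ κ' : ℝ}
    (h : Shr A ℓ ℓ' z κ) (h0 : 0 ≤ κ) (h1 : κ ≤ κ') : Shr A ℓ ℓ' z κ' := fun u =>
  (h u).trans (mul_le_mul_of_nonneg_right (mul_le_mul_of_nonneg_right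
    (pow_le_pow_left₀ h0 h1 2) (Nat.cast_nonneg ℓ)) (E4.hsq_nonneg A _ u))

theorem flux_small : ∃ C : ℝ, 1 ≤ C ∧ ∀ g : Geo, IsW g.A → ∀ (ℓ ℓ' : ℕ) (h h' β c : ℝ), 8 ≤ ℓ →
    1 ≤ c → C * c ^ 2 * ℓ ≤ ℓ' → 16 * ℓ' ≤ g.M → 0 < h → 0 < h' → h' ≤ 4 * h → 0 < β →
    (∀ f, flux g.A f = -1 → ∀ f', f' ≠ f → tdist f' f ≤ 4 * ℓ' → flux g.A f' = 1) →
    ∀ U : Finset g.P, ∀ F ∈ g.sub U, (∀ z ∈ U, (∀ f, tdist f z ≤ ℓ' → |flux g.A f| = 1) ∨
      g.Sch ℓ ℓ' (c * √((ℓ : ℝ) / ℓ')) z) → stein U ≤ ℓ → g.noF F = 0 →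
      g.pn ℓ' h' β U F ≤ C * c * √((ℓ : ℝ) / ℓ') * g.pn ℓ h β U F := by
  obtain ⟨C₂, hC₂, h2⟩ := RN.pn_flux_small
  obtain ⟨C₃, hC₃, h3⟩ := RN.shr_flat
  refine ⟨4 * (12 * (C₂ + C₃)) ^ 2, by nlinarith,
    fun g hA ℓ ℓ' h h' β c h8 c1 hl hM hh hh' h4 hβ hs U F hF hX hU h0 => ?_⟩
  set a := 12 * (C₂ + C₃) * c with ha
  have ha0 : 12 * (C₂ + C₃) ≤ a := le_mul_of_one_le_right (by linarith) c1
  have ha1 : 24 ≤ a := by linarith
  have ha2 : 24 * c ≤ a := mul_le_mul_of_nonneg_right (by linarith) (by linarith)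
  have ha3 : 16 * C₂ * a ≤ 4 * (12 * (C₂ + C₃)) ^ 2 * c := by
    have : 16 * C₂ ≤ 4 * (12 * (C₂ + C₃)) := by linarith
    exact (mul_le_mul_of_nonneg_right this (by linarith)).trans_eq (by rw [ha]; ring)
  replace hl : 4 * a ^ 2 * ℓ ≤ ℓ' := le_of_eq_of_le (by rw [ha]; ring) hl
  clear_value a
  clear ha
  have l0 : (8 : ℝ) ≤ ℓ := by exact_mod_cast h8
  have l1 : 32 * ℓ ≤ ℓ' := by
    have : (32 : ℝ) * ℓ ≤ ℓ' :=
      le_trans (mul_le_mul_of_nonneg_right (by nlinarith) (by linarith)) hl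
    exact_mod_cast this
  have l2 : (0 : ℝ) < ℓ' := by exact_mod_cast (by omega : 0 < ℓ')
  set t := √((ℓ : ℝ) / ℓ') with ht
  have t0 : 0 < t := Real.sqrt_pos.2 (by positivity)
  have t1 : t ^ 2 * ℓ' = ℓ := by
    rw [ht, Real.sq_sqrt (by positivity), div_mul_cancel₀ _ l2.ne']
  have r0 : 0 < a * t := by positivity
  have r1 : a * t ≤ 1 / 2 := by
    refine (sq_le_sq₀ r0.le (by norm_num)).1 (le_of_mul_le_mul_right ?_ l2)
    rw [mul_pow, mul_assoc, t1]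
    linarith
  have p0 : 0 ≤ g.pn ℓ h β U F := pn_nonneg F
  by_cases hc : ∃ f, flux g.A f = -1 ∧ ∃ z ∈ U, tdist f z ≤ ℓ' - ℓ
  · obtain ⟨f, hf, z₀, hz₀, hd⟩ := hc
    refine (h2 g hA ℓ ℓ' (by omega) (by omega) (by omega) (by omega) f hf
      (fun f' hne hd' => hs f hf f' hne (by omega))
      h h' β (4 * C₂) (a * t) hh hh' hβ (by linarith) r0 r1 ?_ (by nlinarith) U
      (fun z hz => ?_) F hF h0).trans (mul_le_mul_of_nonneg_right ?_ p0)
    · have e : (a * t) ^ 2 * h ^ 2 * ℓ' = a ^ 2 * h ^ 2 * ℓ := by rw [← t1]; ring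
      have e1 : h' ^ 2 ≤ 16 * h ^ 2 := by nlinarith
      have e2 : 16 * C₂ ≤ a ^ 2 := by nlinarith
      rw [e]
      refine mul_le_mul_of_nonneg_right ?_ (by positivity)
      nlinarith [sq_nonneg h]
    · have e1 := tdist_le_stein hz hz₀
      have e2 := tdist_triangle z z₀ f
      rw [tdist_comm z₀ f] at e2
      omega
    · have := mul_le_mul_of_nonneg_right ha3 t0.le
      linarith
  · have e0 : ((ℓ' - ℓ : ℕ) : ℝ) = ℓ' - ℓ := Nat.cast_sub (by omega)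
    have e1 : (32 : ℝ) * ℓ ≤ ℓ' := by exact_mod_cast l1
    have e5 : c * t ≤ 2 * (a * t / 8) := by
      linarith [mul_le_mul_of_nonneg_right ha2 t0.le]
    have e6 : h' * (2 * (a * t / 8)) ≤ a * t * h := by
      linarith [mul_le_mul_of_nonneg_right h4 r0.le]
    refine (pn_small (κ := 2 * (a * t / 8)) (by omega) (by omega) hh hh' hβ le_rfl subset_rfl
      (by positivity) (fun z hz => (hX z hz).elim (fun h6 => Shr.enlarge (h3 g.M g.A hA z ℓ (ℓ' - ℓ)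
        (by omega) (by omega) (by omega) (fun f hf => ((abs_eq zero_le_one).1
          (h6 f (by omega))).resolve_right fun h5 => hc ⟨f, h5, z, hz, hf⟩) _ ?_) (by omega)
        (by omega)) fun h6 => shr_mono h6 (by positivity) e5) r0 r1 e6
      hF h0).trans (mul_le_mul_of_nonneg_right ?_ p0)
    · have e2 : (a * t / 8) ^ 2 * ℓ' = a ^ 2 / 64 * ℓ := by rw [← t1]; ring
      have e3 : 128 * C₃ ≤ a ^ 2 := by nlinarith
      have e4 : (a * t / 8) ^ 2 * (ℓ' / 2) ≤ (a * t / 8) ^ 2 * (ℓ' - ℓ) :=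
        mul_le_mul_of_nonneg_left (by linarith) (sq_nonneg _)
      rw [e0]
      linarith [mul_le_mul_of_nonneg_right e3 (Nat.cast_nonneg (α := ℝ) ℓ),
        mul_nonneg (sq_nonneg a) (Nat.cast_nonneg (α := ℝ) ℓ)]
    · linarith [mul_le_mul_of_nonneg_right ha3 t0.le, mul_le_mul_of_nonneg_left r1 r0.le,
        mul_le_mul_of_nonneg_right hC₂ r0.le]

end R4a

namespace Geo

open Vale.Agent.P144Z.Geo

/-- Change of scale near isolated fluxes and at points with a bounded change of scale. -/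
theorem pn_flux : ∃ C : ℝ, 1 ≤ C ∧ ∀ g : Geo, IsW g.A → ∀ (ℓ ℓ' : ℕ) (h h' β c : ℝ), 8 ≤ ℓ →
    1 ≤ c → C * c ^ 2 * ℓ ≤ ℓ' → 16 * ℓ' ≤ g.M → 0 < h → 0 < h' → h' ≤ 4 * h → 0 < β →
    (∀ f, flux g.A f = -1 → ∀ f', f' ≠ f → tdist f' f ≤ 4 * ℓ' → flux g.A f' = 1) →
    ∀ U : Finset g.P, ∀ F ∈ g.sub U, (∀ z ∈ U, (∀ f, tdist f z ≤ ℓ' → |flux g.A f| = 1) ∨
      g.Sch ℓ ℓ' (c * √((ℓ : ℝ) / ℓ')) z) →
      g.pn ℓ' h' β U F ≤ C * Real.exp (C * stein U / ℓ') * g.pn ℓ h β U F ∧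
      (stein U ≤ ℓ → g.noF F = 0 →
        g.pn ℓ' h' β U F ≤ C * c * √((ℓ : ℝ) / ℓ') * g.pn ℓ h β U F) := by
  classical
  obtain ⟨C₁, hC₁, h1⟩ := RN.pn_flux
  obtain ⟨C₂, hC₂, h2⟩ := R4a.flux_small
  obtain ⟨C₃, hC₃, h3⟩ := RN.shr_flat
  have x0 := Real.exp_pos (2 * (4 * C₁))
  refine ⟨Real.exp (2 * (4 * C₁)) + 32 * C₁ + C₂ + 16 * C₃, by linarith,
    fun g hA ℓ ℓ' h h' β c h8 c1 hl hM hh hh' h4 hβ hs U F hF hX => ⟨?_, fun hU h0 => ?_⟩⟩
  · have l0 : (8 : ℝ) ≤ ℓ := by exact_mod_cast h8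
    have c2 : (ℓ : ℝ) ≤ c ^ 2 * ℓ := le_mul_of_one_le_left (by linarith) (one_le_pow₀ c1)
    rw [mul_assoc] at hl
    have l3 : 32 * C₁ * ℓ ≤ ℓ' := le_trans (by nlinarith) hl
    have l4 : 16 * C₃ * ℓ ≤ ℓ' := le_trans (by nlinarith) hl
    have l5 : 16 * (c ^ 2 * ℓ) ≤ ℓ' := le_trans (by nlinarith) hl
    have l1 : 32 * ℓ ≤ ℓ' := by
      have : (32 : ℝ) * ℓ ≤ ℓ' := le_trans (by nlinarith) l3
      exact_mod_cast this
    have l2 : (0 : ℝ) < ℓ' := by exact_mod_cast (by omega : 0 < ℓ')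
    refine (h1 g hA ℓ ℓ' (by omega) (by omega) (by omega) (by omega)
      (fun f a f' b c => hs f a f' b (by omega)) h h' β (4 * C₁) (1 / 4) hh hh' hβ (by linarith)
      ?_ (by nlinarith) (by norm_num) (by linarith) U F hF fun z hz h5 => (hX z hz).elim
        (fun h6 => h3 g.M g.A hA z ℓ ℓ' (by omega) (by omega) (by omega) (fun f hf =>
          ((abs_eq zero_le_one).1 (h6 f hf)).resolve_right fun h7 => by
            have := h5 f h7
            rw [tdist_comm] at this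
            omega) _ (by linarith))
        fun h6 => R4a.shr_mono h6 (by positivity) ?_).trans
      (mul_le_mul_of_nonneg_right ?_ (RN.pn_nonneg F))
    · have e1 : h' ^ 2 ≤ 16 * h ^ 2 := by nlinarith
      have e2 := mul_le_mul_of_nonneg_left l3 (sq_nonneg h)
      have e3 := mul_le_mul_of_nonneg_left e1 (by positivity : 0 ≤ C₁ * ℓ)
      have e4 : 0 ≤ C₁ * ℓ * h ^ 2 := by positivity
      nlinarith
    · refine (sq_le_sq₀ (by positivity) (by norm_num)).1 ?_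
      rw [mul_pow, Real.sq_sqrt (by positivity), ← mul_div_assoc, div_le_iff₀ l2]
      linarith
    · have e1 := card_sep U (univ.filter fun f => flux g.A f = -1 ∧ ∃ z ∈ U, tdist z f ≤ ℓ')
        (r := ℓ') (by omega)
        (fun f hf f' hf' hne => not_le.1 fun h5 => by
          have h6 := hs f' (mem_filter.1 hf').2.1 f hne h5
          rw [(mem_filter.1 hf).2.1] at h6
          norm_num at h6)
        fun f hf => (mem_filter.1 hf).2.2
      rw [mul_div_assoc] at e1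
      refine (R4a.pow_le_exp (by positivity) (by convert e1)).trans ?_
      rw [mul_div_assoc]
      exact mul_le_mul (by linarith) (Real.exp_le_exp.2 (mul_le_mul_of_nonneg_right (by linarith)
        (by positivity))) (Real.exp_pos _).le (by positivity)
  · refine (h2 g hA ℓ ℓ' h h' β c h8 c1 (le_trans (by gcongr; linarith) hl) hM hh hh' h4 hβ hs U F
      hF hX hU h0).trans ?_
    exact mul_le_mul_of_nonneg_right (by gcongr; linarith) (RN.pn_nonneg F)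

end Geo

end Vale.Agent.P144Z.W
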