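import Vale.Agent.P144D.W.Coef
import Vale.Agent.P144D.W.Est

/-!
Port to edge weights.
-/

namespace Vale.Agent.P144Z.W

open Finset Matrix

namespace R3

open Vale.Agent.P144Z.R3

section lat

variable {M : ℕ} [NeZero M]

end lat

variable {g : Geo} {ℓ : ℕ} {h β : ℝ} {X : Finset g.P}

section pn

variable (hℓ : 1 ≤ ℓ) (hh : 0 < h) (hβ : 0 < β)

include hℓ hh hβ

theorem pn_edge {x : g.P} {i : Fin 2} {c t : ℝ} (hA : |g.A (x, i)| ≤ t)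
    (h1 : ∀ a, Gd g ℓ X (e1 x a) c)
    (h2 : ∀ a, Gd g ℓ X (e1 (x + uv g.M i) a) c) :
    g.pn ℓ h β X (g.edge x i) ≤ t * (h ^ 2 * (c * c)) := by
  rw [edge_eq, RN.pn_smul hℓ hh hβ]
  exact mul_le_mul hA (pn_bp hℓ hh hβ (h1 _) (h2 _)) (RN.pn_nonneg _) ((abs_nonneg _).trans hA)

theorem pn_O1 {x : g.P} {c t : ℝ} (hA : ∀ i, |g.A (x, i)| ≤ t ∧ |g.A (x - uv g.M i, i)| ≤ t)
    (h1 : ∀ y ∈ star x, ∀ a, Gd g ℓ (star x) (e1 y a) c) :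
    g.pn ℓ h β (star x) (g.O1 x) ≤ 2 * (t * (h ^ 2 * (c * c))) := by
  have h2 : ∀ i, g.pn ℓ h β (star x) (g.edge x i + g.edge (x - uv g.M i) i) ≤
      2 * (t * (h ^ 2 * (c * c))) := fun i => by
    have a1 := pn_edge hℓ hh hβ (hA i).1 (h1 x (self_mem_star x)) (h1 _ (add_mem_star x i))
    have a2 := pn_edge hℓ hh hβ (hA i).2 (h1 _ (sub_mem_star x i))
      (h1 _ (by rw [sub_add_cancel]; exact self_mem_star x))
    exact (RN.pn_add hℓ hh hβ _ _).trans (by linarith)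
  rw [Geo.O1, RN.pn_smul hℓ hh hβ, Fin.sum_univ_two, abs_of_pos (by norm_num)]
  have := RN.pn_add (X := star x) hℓ hh hβ (g.edge x 0 + g.edge (x - uv g.M 0) 0)
    (g.edge x 1 + g.edge (x - uv g.M 1) 1)
  linarith [h2 0, h2 1]

end pn

theorem flat_one (hA : IsW g.A) {x : g.P} {r : ℕ} (hx : Flat g.A x r) (hr : 1 ≤ r) (i : Fin 2) :
    |g.A (x, i)| ≤ 1 ∧ |g.A (x - uv g.M i, i)| ≤ 1 :=
  ⟨(flat_abs hA hx (e := (x, i)) (by rw [tdist_self]; omega)).le,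
    (flat_abs hA hx (e := (x - uv g.M i, i)) ((E3.tdist_sub_uv x i).trans hr)).le⟩

/-- The dual bounds of the local fields in a flat region. -/
theorem loc_est : ∃ C : ℝ, 1 ≤ C ∧ ∀ g : Geo, IsW g.A → ∀ ℓ : ℕ, 8 ≤ ℓ → 4 * ℓ ≤ g.M →
    ∀ x : g.P, Flat g.A x ℓ → ∃ c c' : ℝ, c * c = C / ℓ ∧ c * c' = C / ℓ ^ 2 ∧
      (∀ y ∈ star x, ∀ a, Gd g ℓ (star x) (e1 y a) c) ∧ (∀ a, Gd g ℓ (star x) (row g.A x a) c') ∧
      (∀ a, Gd g ℓ (star x) (fld x a) c) ∧ ∀ b i, Gd g ℓ (star x) (dfld g.A x b i) c' := by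
  obtain ⟨C, hC, H⟩ := point_est
  refine ⟨4 * C, by linarith, fun g hA ℓ h8 hM x hx => ?_⟩
  have hℓ : 1 ≤ ℓ := by omega
  have h0 : (0 : ℝ) < ℓ := by exact_mod_cast hℓ
  have H' := H g.M g.A hA x ℓ h8 (by omega) hx
  have x0 : tdist x x ≤ 1 := by rw [tdist_self]; omega
  have hC4 : 0 ≤ 4 * C := by linarith
  have up : ∀ u, C * hsq g.A ℓ (ball x ℓ) u ≤ 4 * C * hsq g.A ℓ (ball x ℓ) u := fun u =>
    mul_le_mul_of_nonneg_right (by linarith) (RN.hsq_nonneg _ _ _ _)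
  refine ⟨√(4 * C / ℓ ^ 1), √(4 * C / ℓ ^ 3), ?_, ?_, fun y hy a => ?_, fun a => ?_, fun a => ?_,
    fun b i => ?_⟩
  · rw [Real.mul_self_sqrt (by positivity), pow_one]
  · rw [← Real.sqrt_mul (by positivity), Real.sqrt_eq_iff_mul_self_eq (by positivity)
      (by positivity)]
    field_simp
  · refine gd_star hℓ (e1_out hy a) (Real.sqrt_nonneg _) (dom_of hℓ hC4 1 fun u => ?_)
    rw [single_one_dotProduct]
    exact ((H' y (tdist_star hy) u).1 a).trans (up u)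
  · refine gd_star hℓ (row_out g.A x a) (Real.sqrt_nonneg _) (dom_of hℓ hC4 3 fun u => ?_)
    rw [row_dot]
    exact ((H' x x0 u).2.1 a).trans (up u)
  · refine gd_star hℓ (fld_out (self_mem_star x) a) (Real.sqrt_nonneg _)
      (dom_of hℓ hC4 1 fun u => ?_)
    refine (mul_le_mul_of_nonneg_right (fld_sq x a u) (by positivity)).trans ?_
    have h1 := (H' x x0 u).1
    rw [Fin.sum_univ_four, one_add_one_eq_two]
    linarith [h1 0, h1 1, h1 2, h1 3]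
  · exact gd_star hℓ (dfld_out g.A x b i) (Real.sqrt_nonneg _) (dom_of hℓ hC4 3 fun u =>
      ((H' x x0 u).2.2 b i).trans (up u))

/-- The extracted coefficients. -/
theorem coef_le : ∃ C : ℝ, 1 ≤ C ∧ ∀ g : Geo, IsW g.A → ∀ (ℓ : ℕ) (h β : ℝ), 8 ≤ ℓ →
    16 * ℓ ≤ g.M → 0 < h → 0 < β → ∀ (U : Finset g.P) (x : g.P), x ∈ U → stein U ≤ ℓ →
    Flat g.A x (5 * ℓ) → ∀ F ∈ g.sub U,
      h ^ 2 * |g.nu x F| ≤ C * ℓ * g.pn ℓ h β U F ∧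
      (∀ a b i, h ^ 2 * |g.cK x (Ev.val F) a b i| ≤ C * ℓ ^ 2 * g.pn ℓ h β U F) ∧
      ∀ k, β * h ^ 2 * |g.cM x (g.db k (Ev.val F))| ≤ C * ℓ * g.pn ℓ h β U F := by
  obtain ⟨C, hC, H⟩ := test_est
  refine ⟨4 * C, by linarith, fun g hA ℓ h β h8 hM hh hβ U x hx hU hf F hF => ?_⟩
  have hℓ : 1 ≤ ℓ := by omega
  have h0 : (0 : ℝ) < ℓ := by exact_mod_cast hℓ
  have C0 : 0 < C := by linarith
  have H' := fun z (hz : z ∈ U) => H g.M g.A hA x z ℓ hℓ (by omega)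
    (fun f hf' => hf f (by omega)) (by have := tdist_le_stein hz hx; omega)
  have b0 : 0 < √(C * ℓ) := Real.sqrt_pos.2 (by positivity)
  have b1 : 0 < √(C * ℓ ^ 3) := Real.sqrt_pos.2 (by positivity)
  have t0 : ∀ a, ∀ z ∈ U, hsq g.A ℓ (ball z (2 * ℓ)) (tf0 g.A x a) ≤ √(C * ℓ) ^ 2 * ℓ :=
    fun a z hz => ((H' z hz).1 a).trans_eq (by rw [Real.sq_sqrt (by positivity)]; ring)
  have t1 : ∀ b i, ∀ z ∈ U, hsq g.A ℓ (ball z (2 * ℓ)) (tf1 g.A x b i) ≤ √(C * ℓ ^ 3) ^ 2 * ℓ :=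
    fun b i z hz => ((H' z hz).2 b i).trans_eq (by rw [Real.sq_sqrt (by positivity)]; ring)
  have e0 : √(C * ℓ) * √(C * ℓ) = C * ℓ := Real.mul_self_sqrt (by positivity)
  have e1 : √(C * ℓ) * √(C * ℓ ^ 3) = C * ℓ ^ 2 := by
    rw [← Real.sqrt_mul (by positivity), Real.sqrt_eq_iff_mul_self_eq (by positivity)
      (by positivity)]
    ring
  refine ⟨?_, fun a b i => ?_, fun k => ?_⟩
  · have := beta_le hℓ hh hβ b0 b0 (t0 0) (t0 1) hF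
    rw [e0, ← mul_assoc] at this
    rw [Geo.nu, abs_neg]
    exact this
  · have := beta_le hℓ hh hβ b0 b1 (t0 a) (t1 b i) hF
    rw [e1, ← mul_assoc] at this
    exact this
  · have := beta4_le hℓ hh hβ b0 b0 (t0 0) (t0 1) hF k
    rw [e0, ← mul_assoc] at this
    exact this

end R3

namespace Geo

open Vale.Agent.P144Z.Geo

open Vale.Agent.P144Z.R3 hiding trans_add trans_sub val0 val1 bL_up bL_down bL_O1 cM_edge cM_O1 cM_O2 cK_O1 cK_O2 cM_bp cK_bp pn_edge pn_O1 loc_est coef_le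

open Vale.Agent.P144Z.W.R3

variable {g : Geo}

/-- Crude bounds, in any gauge field. -/
theorem pn_crude : ∃ C : ℝ, 1 ≤ C ∧ ∀ g : Geo, IsW g.A → ∀ (ℓ : ℕ) (h β : ℝ), 1 ≤ ℓ → 0 < h →
    0 < β → ∀ x : g.P, g.pn ℓ h β (star x) (g.O1 x) ≤ C * h ^ 2 * ℓ ∧
      g.pn ℓ h β (star x) (g.O2 x) ≤ C * h ^ 2 * ℓ ∧
      ∀ i (X : Finset g.P), x ∈ X → x + uv g.M i ∈ X → g.pn ℓ h β X (g.edge x i) ≤ 3 * (h ^ 2 * ℓ) := by
  refine ⟨54, by norm_num, fun g hA ℓ h β hℓ hh hβ x => ?_⟩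
  have e : √(ℓ : ℝ) * √ℓ = ℓ := Real.mul_self_sqrt (Nat.cast_nonneg ℓ)
  have h0 : 0 ≤ h ^ 2 * ℓ := by positivity
  have h1 := pn_O1 hℓ hh hβ (x := x) (fun _ => ⟨hA.abs_le_three _, hA.abs_le_three _⟩) fun y hy a => gd_e1 hy a
  have h2 := pn_site hℓ hh hβ (x := x) fun a => gd_e1 (self_mem_star x) a
  rw [e] at h1 h2
  refine ⟨by linarith, ?_, fun i X hx hx' => ?_⟩
  · refine (RN.pn_add hℓ hh hβ _ _).trans ?_
    rw [RN.pn_smul hℓ hh hβ, abs_of_pos tc_pos]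
    have h3 := mul_le_of_le_one_left (RN.pn_nonneg (ℓ := ℓ) (h := h) (β := β) (X := star x)
      (g.O1 x)) E3.tc_le
    linarith
  · have h3 := pn_edge hℓ hh hβ (hA.abs_le_three _) (fun a => gd_e1 hx a) fun a => gd_e1 hx' a
    rwa [e] at h3

/-- The norms of the local terms in a flat region. -/
theorem pn_local : ∃ C : ℝ, 1 ≤ C ∧ ∀ g : Geo, IsW g.A → ∀ (ℓ : ℕ) (h β : ℝ), 8 ≤ ℓ →
    4 * ℓ ≤ g.M → 0 < h → 0 < β → ∀ x : g.P, Flat g.A x ℓ →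
      g.pn ℓ h β (star x) (g.O1 x) ≤ C * h ^ 2 / ℓ ∧
      g.pn ℓ h β (star x) (g.O2 x) ≤ C * h ^ 2 / ℓ ^ 2 ∧
      (∀ i, g.pn ℓ h β (star x) (g.edge x i) ≤ C * h ^ 2 / ℓ) ∧
      ∀ k, (g.src k).y = x → g.pn ℓ h β (star x) (g.bE k) ≤ C * β * h ^ 2 / ℓ := by
  obtain ⟨C, hC, H⟩ := loc_est
  refine ⟨2 * C, by linarith, fun g hA ℓ h β h8 hM hh hβ x hx => ?_⟩
  have hℓ : 1 ≤ ℓ := by omega
  obtain ⟨c, c', e, e', h1, h2, -, -⟩ := H g hA ℓ h8 hM x hx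
  have h3 : ∀ i, g.pn ℓ h β (star x) (g.edge x i) ≤ 2 * C * h ^ 2 / ℓ := fun i => by
    have h4 := pn_edge hℓ hh hβ (flat_one hA hx hℓ i).1 (h1 x (self_mem_star x))
      (h1 _ (add_mem_star x i))
    have h5 : 0 ≤ h ^ 2 * (C / ℓ) := by positivity
    rw [e] at h4
    calc _ ≤ 2 * (h ^ 2 * (C / ℓ)) := by linarith
      _ = _ := by ring
  refine ⟨(pn_O1 hℓ hh hβ (flat_one hA hx hℓ) h1).trans_eq (by rw [e]; ring),
    (pn_O2 hℓ hh hβ (h1 x (self_mem_star x)) h2).trans_eq (by rw [e']; ring), h3, ?_⟩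
  rintro k rfl
  refine (RN.pn_mul hℓ hh hβ _ _).trans ((mul_le_mul (R3.pn_bv hℓ hh hβ (self_mem_star _)) (h3 _)
    (RN.pn_nonneg _) hβ.le).trans_eq ?_)
  ring

/-- The extracted coefficients and terms are bounded by the norm. -/
theorem pn_extract : ∃ C : ℝ, 1 ≤ C ∧ ∀ g : Geo, IsW g.A → ∀ (ℓ : ℕ) (h β : ℝ), 8 ≤ ℓ →
    16 * ℓ ≤ g.M → 0 < h → 0 < β → ∀ (U : Finset g.P) (x : g.P), x ∈ U → stein U ≤ ℓ →
    Flat g.A x (5 * ℓ) → ∀ F ∈ g.sub U,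
      h ^ 2 * |g.nu x F| ≤ C * ℓ * g.pn ℓ h β U F ∧
      h ^ 2 * |g.ze x F| ≤ C * ℓ ^ 2 * g.pn ℓ h β U F ∧
      (∀ k, (g.src k).y = x → β * h ^ 2 * |g.zt k F| ≤ C * ℓ * g.pn ℓ h β U F) ∧
      ∀ (ℓ' : ℕ) (h' β' : ℝ), ℓ ≤ ℓ' → 4 * ℓ' ≤ g.M → Flat g.A x ℓ' → 0 < h' → 0 < β' →
        g.pn ℓ' h' β' (star x) (g.Ext x F) ≤ C * (h' / h) ^ 2 * g.pn ℓ h β U F := by
  obtain ⟨C, hC, H⟩ := coef_le
  obtain ⟨D, hD, H'⟩ := loc_est
  have CD : C ≤ C * D := le_mul_of_one_le_right (by linarith) hD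
  refine ⟨120 * (C * D), by linarith, fun g hA ℓ h β h8 hM hh hβ U x hx hU hf F hF => ?_⟩
  obtain ⟨b1, b2, b3⟩ := H g hA ℓ h β h8 hM hh hβ U x hx hU hf F hF
  obtain ⟨p, hp⟩ : ∃ p, p = g.pn ℓ h β U F := ⟨_, rfl⟩
  rw [← hp] at b1 b2 b3 ⊢
  have p0 : 0 ≤ p := hp ▸ RN.pn_nonneg F
  have l1 : (1 : ℝ) ≤ ℓ := by exact_mod_cast (by omega : 1 ≤ ℓ)
  have h2 : 0 < h ^ 2 := by positivity
  have q1 : 0 ≤ ℓ * p := by positivity
  have q2 : 0 ≤ (ℓ : ℝ) ^ 2 * p := by positivity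
  have q3 : ℓ * p ≤ ℓ ^ 2 * p := mul_le_mul_of_nonneg_right (by nlinarith) p0
  have r1 := mul_le_mul_of_nonneg_right CD q1
  have r2 := mul_le_mul_of_nonneg_right CD q2
  have r3 := mul_nonneg (show 0 ≤ C by linarith) q1
  have r4 := mul_nonneg (show 0 ≤ C by linarith) q2
  have r5 := mul_le_mul_of_nonneg_left q3 (show 0 ≤ C by linarith)
  have n1 : |g.nu x F| ≤ C * ℓ * p / h ^ 2 := by rw [le_div_iff₀ h2]; linarith
  have n2 : |g.nu x F| ≤ C * ℓ ^ 2 * p / h ^ 2 := by rw [le_div_iff₀ h2]; linarith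
  have n3 : ∀ a b i, |g.cK x (Ev.val F) a b i| ≤ C * ℓ ^ 2 * p / h ^ 2 := fun a b i => by
    rw [le_div_iff₀ h2]; linarith [b2 a b i]
  have n4 := abs_ze_le n2 n3
  refine ⟨by linarith, ?_, ?_, fun ℓ' h' β' hl hM' hf' hh' hβ' => ?_⟩
  · rw [← mul_div_assoc, le_div_iff₀ h2] at n4
    linarith
  · rintro k rfl
    rw [zt, abs_mul, abs_neg, abs_two]
    linarith [b3 k]
  · have hℓ' : 1 ≤ ℓ' := by omega
    have l2 : (ℓ : ℝ) ≤ ℓ' := by exact_mod_cast hl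
    have l3 : (0 : ℝ) < ℓ' := by linarith
    obtain ⟨c, c', e, e', d1, d2, d3, d4⟩ := H' g hA ℓ' (by omega) hM' x hf'
    have a1 := (pn_O1 hℓ' hh' hβ' (flat_one hA hf' hℓ') d1).trans_eq (by rw [one_mul])
    have a2 := pn_O2 hℓ' hh' hβ' (d1 x (self_mem_star x)) d2
    have a3 := fun a b i => pn_bp hℓ' hh' hβ' (d3 a) (d4 b i)
    rw [e] at a1
    rw [e'] at a2 a3
    obtain ⟨T, hT⟩ : ∃ T, T = C * D * (h' / h) ^ 2 * p := ⟨_, rfl⟩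
    have T0 : 0 ≤ T := by rw [hT]; positivity
    have s1 : C * ℓ * p / h ^ 2 * (h' ^ 2 * (D / ℓ')) ≤ T :=
      calc _ = T * (ℓ / ℓ') := by rw [hT]; field_simp
        _ ≤ T := mul_le_of_le_one_right T0 ((div_le_one l3).2 l2)
    have s2 : C * ℓ ^ 2 * p / h ^ 2 * (h' ^ 2 * (D / ℓ' ^ 2)) ≤ T :=
      calc _ = T * (ℓ / ℓ') ^ 2 := by rw [hT]; field_simp
        _ ≤ T := mul_le_of_le_one_right T0
          (pow_le_one₀ (by positivity) ((div_le_one l3).2 l2))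
    have u1 : g.pn ℓ' h' β' (star x) (g.nu x F • g.O1 x) ≤ 2 * T := by
      rw [RN.pn_smul hℓ' hh' hβ']
      have := mul_le_mul n1 a1 (RN.pn_nonneg _) (by positivity)
      linarith
    have u2 : g.pn ℓ' h' β' (star x) (g.ze x F • g.O2 x) ≤ 54 * T := by
      rw [RN.pn_smul hℓ' hh' hβ']
      have := mul_le_mul n4 a2 (RN.pn_nonneg _) (by positivity)
      linarith
    have u3 : ∀ a b i, g.pn ℓ' h' β' (star x) ((g.cK x (Ev.val F) a b i -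
        kt a b i * (g.nu x F + tc * g.ze x F) / 4) • bp g (fld x a) (dfld g.A x b i)) ≤ 8 * T :=
      fun a b i => by
        rw [RN.pn_smul hℓ' hh' hβ']
        have := mul_le_mul (abs_co_le n2 n3 a b i) (a3 a b i) (RN.pn_nonneg _) (by positivity)
        linarith
    have u4 := (RN.pn_sum hℓ' hh' hβ' univ _).trans (sum_le_sum fun a _ =>
      (RN.pn_sum hℓ' hh' hβ' univ _).trans (sum_le_sum fun b _ =>
        (RN.pn_sum hℓ' hh' hβ' univ _).trans (sum_le_sum fun i _ => u3 a b i)))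
    simp only [sum_const, card_univ, Fintype.card_fin, nsmul_eq_mul, Nat.cast_ofNat] at u4
    rw [Ext_eq]
    refine (RN.pn_add hℓ' hh' hβ' _ _).trans ((add_le_add (RN.pn_add hℓ' hh' hβ' _ _) u4).trans ?_)
    calc _ ≤ 120 * T := by linarith
      _ = _ := by rw [hT]; ring

end Geo

end Vale.Agent.P144Z.W
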