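import Vale.Agent.P144D.W.Wf
import Vale.Agent.P144D.W.R3
import Vale.Agent.P144Z.R5.Main

/-!
The initial step of the corrected flow.
-/

namespace Vale.Agent.P144Z.W

open Finset Matrix

namespace R5

open Vale.Agent.P144Z.R5

variable {g : Geo} {h β : ℝ} {𝓛 : LocSys g.P g.E}

/-- The correction terms. -/
noncomputable def Hc (g : Geo) (c : Cor g.M) (X : Finset g.P) (n : g.Cfg) : g.E :=
  c X n • (1 : g.E)

theorem HinC_eq (q : Par) (c : Cor g.M) (X : Finset g.P) :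
    g.HinC q c X = (Hu g q.R q.V q.μ X + Hc g c X) + Hs g X := by
  funext n
  rw [Geo.HinC, Hin_eq]
  simp only [Pi.add_apply, Hc]
  abel

theorem Hc_mem {c : Cor g.M} (hc : c.Ok) (X : Finset g.P) : Hc g c X ∈ (fS 𝓛).sub X :=
  mem_fS (fun n n' hn => by
    rw [Hc, Hc, hc.dep X n n' fun e h1 h2 => hn e (mem_edg.2 ⟨h1, h2⟩)])
    fun n => Subalgebra.smul_mem _ (one_mem _) _

/-- The constant of the correction. -/
noncomputable def eR (τ : ℝ) (R : ℕ) : ℝ := Real.exp (τ * (1 + (R * (2 * R + 1) ^ 2 : ℕ)))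

theorem one_le_eR {τ : ℝ} (hτ : 0 ≤ τ) (R : ℕ) : 1 ≤ eR τ R := Real.one_le_exp (by positivity)

theorem pt_Hc {τ γ : ℝ} (hτ : 0 ≤ τ) {c : Cor g.M} {R : ℕ} (hc : c.Le R γ) :
    0 ≤ γ ∧ Pt τ (fun X => (fS 𝓛).p X (Hc g c X)) (eR τ R * γ) := by
  obtain ⟨b, h1, h2, h3⟩ := hc
  have h0 : ∀ X, 0 ≤ b X := fun X => (abs_nonneg _).trans (h1 X fun _ => true)
  refine ⟨(sum_nonneg fun X _ => h0 X).trans (h3 0), fun y => ?_⟩
  refine le_trans ?_ (mul_le_mul_of_nonneg_left (h3 y) (Real.exp_pos _).le)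
  rw [mul_sum]
  refine sum_le_sum fun X hX => ?_
  have h4 : (fS 𝓛).p X (Hc g c X) ≤ b X := fS_le fun n => by
    rw [Hc, 𝓛.p_smul]
    exact (mul_le_of_le_one_right (abs_nonneg _) (𝓛.p_one X)).trans (h1 X n)
  refine (mul_le_mul_of_nonneg_right h4 (Real.exp_pos _).le).trans ?_
  rw [mul_comm]
  by_cases h5 : b X = 0
  · rw [h5, mul_zero, mul_zero]
  · refine mul_le_mul_of_nonneg_right (Real.exp_le_exp.2 (mul_le_mul_of_nonneg_left ?_ hτ)) (h0 X)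
    exact_mod_cast Nat.add_le_add_left
      (stein_le_of_ball fun x hx => h2 X h5 x hx y (mem_filter.1 hX).2) 1

theorem Hs_empty (hg : g.OkW) : Hs g ∅ = 0 := sum_eq_zero fun k hk =>
  absurd ((mem_filter.1 hk).2 ▸ self_mem_put (g.src k).y (hg.src k).zero) (notMem_empty _)

variable (hg : g.OkW) (h1 : 𝓛.sub = g.sub)
include hg h1

theorem hs_mem (k : g.K) : hs g k ∈ (fS 𝓛).sub (g.put (g.src k).y (g.src k).Y) := by
  refine mem_fS (fun n n' hn => ?_) fun n => Subalgebra.smul_mem _ ?_ _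
  · unfold hs
    rw [(hg.src k).dep _ _ (see_congr hn)]
  · rw [h1]
    exact Geo.bv_mem (self_mem_put _ (hg.src k).zero)

theorem Hs_mem (X : Finset g.P) : Hs g X ∈ (fS 𝓛).sub X :=
  sum_mem fun k hk => (mem_filter.1 hk).2 ▸ hs_mem hg h1 k

variable (h2 : 𝓛.p = g.pn 8 h β) (hh : 0 < h) (hβ : 0 < β)
include h2 hh hβ

omit h1 in
theorem pt_Hs {τ : ℝ} (hτ : 0 ≤ τ) {r : ℕ}
    (hr : ∀ k, ∀ x ∈ g.put (g.src k).y (g.src k).Y, tdist x (g.src k).y ≤ r)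
    (hu : ∀ k k' x, x ∈ g.put (g.src k).y (g.src k).Y → x ∈ g.put (g.src k').y (g.src k').Y →
      k = k') :
    Pt τ (fun X => (fS 𝓛).p X (Hs g X))
      (Real.exp (τ * (1 + (r * (2 * r + 1) ^ 2 : ℕ))) * β) := by
  refine (pt_terms (c := (r * (2 * r + 1) ^ 2 : ℕ)) (N := β) hτ univ
    (fun k => g.put (g.src k).y (g.src k).Y) (fun _ => β) (fun _ _ => hβ.le)
    (fun k _ => by exact_mod_cast stein_le_of_ball (hr k)) fun y => ?_).mono (fun X => ?_) le_rfl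
  · rw [sum_const, nsmul_eq_mul]
    refine mul_le_of_le_one_left hβ.le ?_
    exact_mod_cast card_le_one.2 fun k hk k' hk' =>
      hu k k' y (mem_filter.1 hk).2 (mem_filter.1 hk').2
  · refine (B3.p_sum_le _ _ _ _).trans (sum_le_sum fun k hk => fS_le fun n => ?_)
    rw [hs, 𝓛.p_smul]
    refine (mul_le_of_le_one_left (𝓛.p_nonneg _ _) ((hg.src k).bd _)).trans ?_
    rw [h2]
    exact Geo.pn_bv k hg.sign (by norm_num) hh hβ
      ((mem_filter.1 hk).2 ▸ self_mem_put (g.src k).y (hg.src k).zero)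

theorem isExp_E0 {w : ℝ} (hw : |w| ≤ 1) : IsExp (Z1 g.M) (fS 𝓛) 𝓛 (kp0 (2 * h)) (g.E0 w) := by
  obtain ⟨C, -, hC⟩ := Geo.pn_crude
  refine isExp_Ex (hT := edg_mono) (Z1 g.M) (fun e => w • g.edge e.1 e.2) (b := (2 * h) ^ 2 * 8)
    (by positivity) (fun X e he => ?_) card_edg disjoint_edg _ (E0_eq w)
  obtain ⟨h3, h4⟩ := mem_edg.1 he
  refine ⟨Subalgebra.smul_mem _ (h1 ▸ Geo.edge_mem e.1 e.2 h3 h4) _, ?_⟩
  rw [𝓛.p_smul]
  refine (mul_le_of_le_one_left (𝓛.p_nonneg _ _) hw).trans ?_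
  rw [h2]
  refine ((hC g hg.sign 8 h β (by norm_num) hh hβ e.1).2.2 e.2 X h3 h4).trans ?_
  push_cast
  nlinarith [sq_nonneg h]

omit h1 h2 hh hβ in
theorem E0_hs (q : Par) {k : g.K} (hon : (g.src k).on = true) :
    g.E0 (q.x * q.Z) (hs g k) = g.bv k + g.z0 q k • g.bE k := by
  have h3 : ∀ n, hs g k n = g.bv k * (sgn (n ((g.src k).y, (g.src k).dir)) • 1) := by
    intro n
    rw [hs, ((hg.src k).en hon).2, mul_smul_comm, mul_one]
    simp [Geo.see, prj, Prod.mk_zero_zero]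
  rw [E0_eq, funext h3, Ex_const_mul, Ex_split _ _ ((g.src k).y, (g.src k).dir)]
  simp only [Function.update_self, Ex_const, Geo.z0, Geo.bE, hon, sgn, if_true,
    Bool.false_eq_true, if_false, neg_smul, one_smul, ← mul_smul_comm]
  rw [neg_mul, neg_smul, mul_smul (2 : ℝ), two_smul]
  ring

theorem Cl_Hs (q : Par) (hw : |q.x * q.Z| ≤ 1) (hon : ∀ k, (g.src k).on = true)
    (hu : ∀ k k' x, x ∈ g.put (g.src k).y (g.src k).Y → x ∈ g.put (g.src k').y (g.src k').Y →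
      k = k') (U : Finset g.P) : Cl (g.E0 (q.x * q.Z)) (Hs g) U = g.Wsrc q U := by
  rw [Geo.Wsrc, ← sum_congr rfl fun k _ => E0_hs hg q (hon k)]
  refine Cl_disj exp_ev_injective (isExp_E0 hg h1 h2 hh hβ hw) _ (hs g) (hs_mem hg h1) ?_
    (fun k => funext fun n => I2.smul_sq (Geo.bv_sq k) _) (fun k => ?_) U
  · rintro k k' hk ⟨x, hx, y, hy, rfl⟩
    exact hk (hu k k' x hx hy)
  · rw [E0_hs hg q (hon k), Geo.bE, ← mul_smul_comm, ← mul_one_add, mul_mul_mul_comm, Geo.bv_sq,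
      zero_mul]

end R5

namespace Geo

open Vale.Agent.P144Z.Geo Vale.Agent.P144Z.R5

/-- The initial step with isolated energy sources. -/
theorem init_earlyC (τ h : ℝ) (hτ : 0 ≤ τ) (hh : 0 < h) : ∃ β₀ > 0, ∃ C₀ : ℝ, 1 ≤ C₀ ∧ ∀ R : ℕ,
    ∃ C : ℝ, 1 ≤ C ∧ ∀ q : Par, q.R = R → q.Ok → ∀ δ δ' γ, q.Small δ → C * (δ + δ') ≤ 1 →
    C₀ * γ ≤ 1 → ∀ g : Geo, g.OkW → ∀ c : Cor g.M, c.Ok → c.Sm R γ δ' →
    (∀ k, (g.src k).on = true) → (∀ k k', k ≠ k' → 8 < tdist (g.src k).y (g.src k').y) →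
    ∀ β, 0 < β → β ≤ β₀ →
      NormedSpace.exp (∑ U, g.W0C q c U) =
        g.E0 (q.x * q.Z) (NormedSpace.exp (∑ X, g.HinC q c X)) ∧
      Anch 8 τ (fun U => g.pn 8 h β U (g.W0C q c U - g.Wsrc q U)) (C₀ * γ + C * (δ + δ')) := by
  have hk := kp0_nonneg (2 * h)
  have hσ : 0 ≤ τ + kp0 (2 * h) + 2 := by positivity
  set σ := τ + kp0 (2 * h) + 2 with hσ'
  have e1 := R5.one_le_eR hσ
  refine ⟨(1 / 96) / Real.exp (σ * (1 + (1 * (2 * 1 + 1) ^ 2 : ℕ))), by positivity,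
    10000 * R5.eR σ 1, by linarith [e1 1], fun R => ⟨10000 * (cR σ R + R5.eR σ (2 * R + 2)),
      by linarith [one_le_cR hσ R, e1 (2 * R + 2)], ?_⟩⟩
  rintro q rfl hq δ δ' γ hδ hC hC₀ g hg c hc ⟨c₁, c₂, rfl, hc₁, hc₂⟩ hon hsep β hβ hβ0
  obtain ⟨𝓛, h1, h2⟩ := exists_locSys hg.sign (by norm_num : 1 ≤ 8) hh hβ
  have hE := R5.isExp_E0 hg h1 h2 hh hβ (abs_w hq)
  have hr := fun k => (mem_put_on (hg.src k) (hon k)).2.2
  have hu : ∀ k k' x, x ∈ g.put (g.src k).y (g.src k).Y → x ∈ g.put (g.src k').y (g.src k').Y →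
      k = k' := by
    intro k k' x hx hx'
    by_contra hne
    have a1 := hsep k k' hne
    have a2 := hr k x hx
    have a3 := hr k' x hx'
    have a4 := tdist_triangle (g.src k).y x (g.src k').y
    rw [tdist_comm] at a2
    omega
  obtain ⟨γ0, d1⟩ := R5.pt_Hc (𝓛 := 𝓛) hσ hc₁
  obtain ⟨δ0, d2⟩ := R5.pt_Hc (𝓛 := 𝓛) hσ hc₂
  have d3 := mul_nonneg (zero_le_one.trans (one_le_cR hσ q.R)) δ0
  have d4 := mul_nonneg (zero_le_one.trans (e1 (2 * q.R + 2))) (small_nonneg hδ)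
  have b4 := mul_nonneg (zero_le_one.trans (one_le_cR hσ q.R)) (small_nonneg hδ)
  have b5 := mul_nonneg (zero_le_one.trans (e1 1)) γ0
  have b6 := mul_nonneg (zero_le_one.trans (e1 (2 * q.R + 2))) δ0
  have b1 := ((pt_small (𝓛 := 𝓛) hσ hδ).add (d1.add d2)).mono
    (f' := fun X => (fS 𝓛).p X (Hu g q.R q.V q.μ X + R5.Hc g (c₁ + c₂) X)) (fun X => by
      have e : R5.Hc g (c₁ + c₂) X = R5.Hc g c₁ X + R5.Hc g c₂ X := funext fun n => add_smul _ _ _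
      rw [e]
      exact ((fS 𝓛).p_add X _ _).trans (add_le_add le_rfl ((fS 𝓛).p_add X _ _))) le_rfl
  have b2 := (R5.pt_Hs hg h2 hh hβ hσ hr hu).mono (fun _ => le_rfl)
    ((mul_comm _ _).trans_le ((le_div_iff₀ (Real.exp_pos _)).1 hβ0))
  have b3 := (b1.add b2).mono (f' := fun X => (fS 𝓛).p X (g.HinC q (c₁ + c₂) X))
    (fun X => by rw [R5.HinC_eq]; exact (fS 𝓛).p_add X _ _) (by linarith : _ ≤ (1 / 48 : ℝ))
  have m0 := R3W.HinC_empty hg hc q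
  have m1 : ∀ X, g.HinC q (c₁ + c₂) X ∈ (fS 𝓛).sub X := fun X => by
    rw [R5.HinC_eq]
    exact add_mem (add_mem (Hu_mem _ _ _ X) (R5.Hc_mem hc X)) (R5.Hs_mem hg h1 X)
  refine ⟨(pt_cl exp_ev_injective hk hτ hE m0 m1 (by norm_num) b3).2.2, ?_⟩
  have b7 := pt_cl_diff exp_ev_injective hk hτ hE m0 (R5.Hs_empty hg) m1
    (R5.Hs_mem hg h1) b3 (b2.mono (fun _ => le_rfl) (by norm_num))
    (b1.mono (fun X => by rw [R5.HinC_eq, add_sub_cancel_right]) le_rfl) (by linarith)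
  refine anch_mono (b7.anch hτ fun _ => 𝓛.p_nonneg _ _) (fun U => ?_) (by linarith)
  rw [R5.Cl_Hs hg h1 h2 hh hβ q (abs_w hq) hon hu, h2, W0C]

/-- The defect size of the initial state. -/
theorem init_dfC (τ h : ℝ) (hτ : 0 ≤ τ) (hh : 0 < h) : ∃ C : ℝ, 1 ≤ C ∧ ∀ g : Geo, g.OkW →
    ∀ c : Cor g.M, c.Ok → ∀ (q : Par) (η : ℝ), q.Ok → |q.x - tc| ≤ η → |q.Z - 1| ≤ η →
    ∀ β ε : ℝ, 0 < β → (∀ k, (g.src k).on = true) →
      Anch 8 τ (fun U => g.pn 8 h β U (g.W0C q c U - g.Wsrc q U)) ε →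
      Anch 8 τ (g.df 8 h β (g.initC q c) (g.srcSt (g.z0 q))) (4 * ε + C * η) := by
  obtain ⟨C, hC1, hC⟩ := pn_crude
  refine ⟨1 + 289 * (2 * (Real.exp (τ * (1 + 4)) * (9 * (3 * (C * h ^ 2 * 8))))),
    le_add_of_nonneg_right (by positivity), fun g hg c hc q η hq hx hZ β ε hβ hon => ?_⟩
  have h8 : 1 ≤ 8 := by norm_num
  obtain ⟨𝓛, h1, h2⟩ := exists_locSys hg.sign h8 hh hβ
  have hη : 0 ≤ η := (abs_nonneg _).trans hx
  have hv : ∀ x, (g.init q).v x ∈ g.sub (star x) ∧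
      𝓛.p (star x) ((g.init q).v x) ≤ 3 * (C * h ^ 2 * 8) * η := by
    intro x
    obtain ⟨a1, a2, -⟩ := hC g hg.sign 8 h β h8 hh hβ x
    refine ⟨add_mem (Subalgebra.smul_mem _ (O1_mem x) _) (Subalgebra.smul_mem _ (O2_mem x) _),
      (𝓛.p_add _ _ _).trans ?_⟩
    have a3 : |q.Z * (q.x - tc)| ≤ 2 * η := by
      rw [abs_mul]
      exact mul_le_mul (by rw [abs_of_nonneg (by linarith [hq.Z_lo])]; exact hq.Z_hi) hx
        (abs_nonneg _) zero_le_two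
    rw [𝓛.p_smul, 𝓛.p_smul]
    have a4 := mul_le_mul a3 (h2 ▸ a1 : 𝓛.p (star x) (g.O1 x) ≤ _) (𝓛.p_nonneg _ _) (by positivity)
    have a5 := mul_le_mul hZ (h2 ▸ a2 : 𝓛.p (star x) (g.O2 x) ≤ _) (𝓛.p_nonneg _ _) hη
    push_cast at a4 a5
    linarith
  have hcar : Anch 8 τ (fun X => g.pn 8 h β X
      (g.dp 8 X (∑ x ∈ univ.filter (fun x => star x = X), (g.init q).v x)))
      (289 * (2 * (Real.exp (τ * (1 + 4)) * (9 * (3 * (C * h ^ 2 * 8) * η))))) := by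
    refine Pt.anch hτ (fun X => h2 ▸ 𝓛.p_nonneg _ _) (((pt_terms (c := 4) hτ univ star
      (fun _ => 3 * (C * h ^ 2 * 8) * η) (fun _ _ => by positivity)
      (fun x _ => by exact_mod_cast stein_star x) fun y => ?_).mul zero_le_two).mono
      (fun X => ?_) le_rfl)
    · rw [sum_const, nsmul_eq_mul]
      refine mul_le_mul_of_nonneg_right ?_ (by positivity)
      exact_mod_cast (card_le_card fun x hx => G.mem_ball.2
        (G.tdist_star (mem_filter.1 hx).2)).trans (card_ball_le y 1)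
    · refine (pn_dp_le hg.sign h8 hh hβ
        (sum_mem fun x hx => (mem_filter.1 hx).2 ▸ (hv x).1) 8 X).trans
        (mul_le_mul_of_nonneg_left ?_ zero_le_two)
      rw [← h2]
      exact (B3.p_sum_le _ _ _ _).trans (sum_le_sum fun x hx => (mem_filter.1 hx).2 ▸ (hv x).2)
  have key : ∀ (D : Finset g.P → g.E), (∀ X, D X ∈ g.sub X) →
      (∀ X, (g.initC q c).K X = D X - g.noF (D X)) → Anch 8 τ (fun U => g.pn 8 h β U (D U)) ε →
      Anch 8 τ (g.df 8 h β (g.initC q c) (g.srcSt (g.z0 q))) (4 * ε +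
        (1 + 289 * (2 * (Real.exp (τ * (1 + 4)) * (9 * (3 * (C * h ^ 2 * 8)))))) * η) := by
    intro D hD hK hA
    refine anch_mono (anch_add (anch_mul hA (by norm_num : (0 : ℝ) ≤ 4)) hcar) (fun X => ?_)
      (by linarith)
    refine add_le_add ?_ (le_of_eq ?_)
    · have a1 : (g.initC q c).K X - (g.srcSt (g.z0 q)).K X = D X - g.noF (D X) := by
        rw [hK]; exact sub_zero _
      have a2 := pn_dp_le hg.sign h8 hh hβ (sub_mem (hD X) (noF_mem (hD X))) 8 X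
      have a3 := pn_noF_le hg.sign h8 hh hβ (hD X)
      have a4 := B4.p_sub 𝓛 X (D X) (g.noF (D X))
      rw [h2] at a4
      rw [a1]
      linarith
    · congr 2
      simp only [St.car, srcSt, initC, Pi.zero_apply, sum_const_zero, zero_add,
        add_sub_cancel_right]
  refine key _ (fun X => sub_mem (W0C_mem hg hc q X) (sum_mem fun k hk => ?_)) fun X => ?_
  · obtain ⟨a1, a2, -⟩ := mem_put_on (hg.src k) (hon k)
    rw [(mem_filter.1 hk).2] at a1 a2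
    exact add_mem (bv_mem a1) (Subalgebra.smul_mem _ (mul_mem (bv_mem a1) (edge_mem _ _ a1 a2)) _)
  · simp only [initC, Wsrc, map_sub, map_sum, map_add, map_smul, noF_bv, noF_bE, smul_zero,
      sum_add_distrib, sum_const_zero]
    ring

end Geo

end Vale.Agent.P144Z.W
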