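import Vale.Agent.P144D.W.R2
import Vale.Agent.P144D.W.Flux2
import Vale.Agent.P144D.W.R4b
import Vale.Agent.P144D.W.Init
import Vale.Agent.P144D.W.Agree

/-!
Collects the ports to edge weights.
-/
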