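import Vale.Agent.P144Z.TopM
import Vale.Agent.P144Z.C.Loc
import Vale.Agent.P144Z.E3.Main
import Vale.Agent.P144Z.E4.Norms

/-!
Edge weights: signs, removed edges and edges without a bond.
-/

namespace Vale.Agent.P144Z

open Finset Matrix

/-- The inverse of the critical weight. -/
noncomputable def tT : ℝ := √2 + 1

/-- The values are zero, signs, or `tT` up to a sign. -/
def IsW {α : Type} (A : α → ℝ) : Prop := ∀ e, A e = 0 ∨ |A e| = 1 ∨ |A e| = tT

/-- Edge weights and admissible sources. -/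
structure Geo.OkW (g : Geo) : Prop where
  sign : IsW g.A
  src : ∀ k, (g.src k).Ok

theorem tc_mul_tT : tc * tT = 1 := by
  have h := Real.mul_self_sqrt (zero_le_two (α := ℝ))
  unfold tc tT
  linarith

theorem two_le_tT : 2 ≤ tT := by
  have h : (1 : ℝ) ≤ √2 := Real.one_le_sqrt.2 (by norm_num)
  unfold tT
  linarith

theorem tT_le : tT ≤ 5 / 2 := by
  have h : √2 ≤ (3 / 2 : ℝ) := Real.sqrt_le_iff.2 ⟨by norm_num, by norm_num⟩
  unfold tT
  linarith

theorem IsSign.isW {α : Type} {A : α → ℝ} (h : IsSign A) : IsW A :=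
  fun e => Or.inr (Or.inl (C.abs_sign h e))

theorem Geo.Ok.okW {g : Geo} (h : g.Ok) : g.OkW := ⟨h.sign.isW, h.src⟩

theorem IsW.abs_le {α : Type} {A : α → ℝ} (h : IsW A) (e : α) : |A e| ≤ tT := by
  have := two_le_tT
  rcases h e with h | h | h
  · rw [h, abs_zero]; linarith
  · linarith
  · exact h.le

theorem IsW.abs_le_three {α : Type} {A : α → ℝ} (h : IsW A) (e : α) : |A e| ≤ 3 :=
  (h.abs_le e).trans (by linarith [tT_le])

/-- The sign field that agrees with `A` where `A` is a sign. -/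
noncomputable def shp {α : Type} (A : α → ℝ) (e : α) : ℝ := if A e = -1 then -1 else 1

theorem shp_sign {α : Type} (A : α → ℝ) : IsSign (shp A) := fun e => by
  unfold shp
  split_ifs
  · exact Or.inr rfl
  · exact Or.inl rfl

theorem shp_eq {α : Type} {A : α → ℝ} {e : α} (h : |A e| = 1) : shp A e = A e := by
  unfold shp
  split_ifs with h1
  · exact h1.symm
  · exact ((abs_eq zero_le_one).1 h).resolve_right h1 |>.symm

namespace W

variable {M : ℕ}

theorem abs_one_of_prod {a b : ℝ} (ha : a = 0 ∨ |a| = 1 ∨ |a| = tT) (hb : b = 0 ∨ 1 ≤ |b|)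
    (h : |a * b| = 1) : |a| = 1 := by
  have := two_le_tT
  rw [abs_mul] at h
  rcases ha with rfl | ha | ha
  · simp at h
  · exact ha
  · rcases hb with rfl | hb
    · simp at h
    · nlinarith

theorem zero_or_le {α : Type} {A : α → ℝ} (hA : IsW A) (a b c : α) :
    A a * A b * A c = 0 ∨ 1 ≤ |A a * A b * A c| := by
  have h2 := two_le_tT
  have k : ∀ e, A e = 0 ∨ 1 ≤ |A e| := fun e =>
    (hA e).imp_right fun h => by rcases h with h | h <;> linarith
  rcases k a with h | h
  · simp [h]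
  rcases k b with h' | h'
  · simp [h']
  rcases k c with h'' | h''
  · simp [h'']
  rw [abs_mul, abs_mul]
  exact Or.inr (one_le_mul_of_one_le_of_one_le (one_le_mul_of_one_le_of_one_le h h') h'')

/-- The edges of a face with flux `1` or `-1` carry signs. -/
theorem face_sign {A : Gauge M} (hA : IsW A) {f : Tor M} (h : |flux A f| = 1) :
    |A (f, 0)| = 1 ∧ |A (f + uv M 0, 1)| = 1 ∧ |A (f + uv M 1, 0)| = 1 ∧ |A (f, 1)| = 1 := by
  unfold flux at h
  refine ⟨abs_one_of_prod (hA _) (zero_or_le hA (f + uv M 0, 1) (f + uv M 1, 0) (f, 1)) ?_,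
    abs_one_of_prod (hA _) (zero_or_le hA (f, 0) (f + uv M 1, 0) (f, 1)) ?_,
    abs_one_of_prod (hA _) (zero_or_le hA (f, 0) (f + uv M 0, 1) (f, 1)) ?_,
    abs_one_of_prod (hA _) (zero_or_le hA (f, 0) (f + uv M 0, 1) (f + uv M 1, 0)) ?_⟩ <;>
  · rw [← h]
    congr 1
    ring

theorem flux_shp {A : Gauge M} (hA : IsW A) {f : Tor M} (h : |flux A f| = 1) :
    flux (shp A) f = flux A f := by
  obtain ⟨h1, h2, h3, h4⟩ := face_sign hA h
  rw [flux, flux, shp_eq h1, shp_eq h2, shp_eq h3, shp_eq h4]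

theorem flat_shp {A : Gauge M} (hA : IsW A) {z : Tor M} {r : ℕ} (h : Flat A z r) :
    Flat (shp A) z r := fun f hf => by
  rw [flux_shp hA (by rw [h f hf, abs_one]), h f hf]

theorem flat_abs {A : Gauge M} (hA : IsW A) {z : Tor M} {r : ℕ} (h : Flat A z r)
    {e : Tor M × Fin 2} (he : tdist e.1 z ≤ r) : |A e| = 1 := by
  obtain ⟨x, i⟩ := e
  have h1 := face_sign hA (f := x) (by rw [h x he, abs_one])
  fin_cases i
  · exact h1.1
  · exact h1.2.2.2

theorem flat_sq {A : Gauge M} (hA : IsW A) {z : Tor M} {r : ℕ} (h : Flat A z r)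
    {e : Tor M × Fin 2} (he : tdist e.1 z ≤ r) : A e * A e = 1 := by
  rw [← abs_mul_abs_self, flat_abs hA h he, mul_one]

theorem shp_flat {A : Gauge M} (hA : IsW A) {z : Tor M} {r : ℕ} (h : Flat A z r)
    (e : Tor M × Fin 2) (he : tdist e.1 z ≤ r) : shp A e = A e := shp_eq (flat_abs hA h he)

theorem flat_mono {A : Gauge M} {z : Tor M} {r r' : ℕ} (h : Flat A z r) (hr : r' ≤ r) :
    Flat A z r' := fun f hf => h f (hf.trans hr)

variable [NeZero M]

theorem isD_Dm {A : Gauge M} (hA : IsW A) : IsD (Dm A) := by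
  refine C.schur (C.Dm_anti A) fun s => ?_
  obtain ⟨x, a⟩ := s
  have h0 : ∀ e, |tc * A e| ≤ 1 := fun e => by
    rw [abs_mul, abs_of_nonneg C.tc_nonneg, ← tc_mul_tT]
    exact mul_le_mul_of_nonneg_left (hA.abs_le e) C.tc_nonneg
  have h1 : ∑ t : Tor M × Fin 4, |if x = t.1 then sA a t.2 else 0| = 3 := by
    rw [Fintype.sum_prod_type, sum_eq_single x]
    · simpa using C.sum_sA a
    · intro y _ hy
      simp [Ne.symm hy]
    · simp
  have h2 : ∀ t : Tor M × Fin 4, |tc * (hop A (x, a) t - hop A t (x, a))| ≤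
      if t = ![(x + uv M 0, 2), (x + uv M 1, 3), (x - uv M 0, 0), (x - uv M 1, 1)] a then 1
      else 0 := by
    rintro ⟨y, b⟩
    fin_cases a <;> fin_cases b <;> simp [hop, eq_sub_iff_add_eq, eq_comm (a := x)] <;>
      split_ifs <;> simp [← abs_mul, h0]
  have h3 : ∑ t : Tor M × Fin 4, |tc * (hop A (x, a) t - hop A t (x, a))| ≤ 1 :=
    (sum_le_sum fun t _ => h2 t).trans (by simp)
  refine (sum_le_sum fun t _ => abs_add_le _ _).trans ?_
  rw [sum_add_distrib, h1]
  linarith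

/-- The powers of the operator only depend on the weights nearby. -/
theorem Dm_pow_congr {A A' : Gauge M} {z : Tor M} (g : Tor M × Fin 4 → ℝ) (k : ℕ) :
    ∀ r : ℕ, (∀ e : Tor M × Fin 2, tdist e.1 z ≤ r + k → A e = A' e) → ∀ x a, tdist x z ≤ r →
      ((Dm A ^ k) *ᵥ g) (x, a) = ((Dm A' ^ k) *ᵥ g) (x, a) := by
  induction k with
  | zero => intro r _ x a _; simp
  | succ k ih =>
    intro r h x a hx
    have h1 := ih (r + 1) fun e he => h e (by omega)
    have h2 : ∀ i, tdist (x + uv M i) z ≤ r + 1 := fun i => (E3.near_add i).trans (by omega)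
    have h3 : ∀ i, tdist (x - uv M i) z ≤ r + 1 := fun i => (E3.near_sub i).trans (by omega)
    have h4 : ∀ i, A (x, i) = A' (x, i) := fun i => h _ (by dsimp only; omega)
    have h5 : ∀ i, A (x - uv M i, i) = A' (x - uv M i, i) := fun i =>
      h _ ((h3 i).trans (by omega))
    rw [pow_succ', pow_succ', ← mulVec_mulVec, ← mulVec_mulVec, E3.Dm_apply, E3.Dm_apply]
    simp only [h4, h5, h1 _ _ (h2 _), h1 _ _ (h3 _), h1 x _ (by omega)]

theorem hsq_congrA {A A' : Gauge M} {z : Tor M} {r : ℕ}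
    (h : ∀ e : Tor M × Fin 2, tdist e.1 z ≤ r + 4 → A e = A' e) (ρ : ℝ)
    (g : Tor M × Fin 4 → ℝ) : hsq A ρ (ball z r) g = hsq A' ρ (ball z r) g := by
  refine sum_congr rfl fun k hk => ?_
  rw [mem_range] at hk
  congr 1
  exact E3.l2sq_congr fun x hx a =>
    Dm_pow_congr g k r (fun e he => h e (by omega)) x a (E3.mem_ball.1 hx)

theorem trans_congr {A A' : Gauge M} {x y : Tor M} {r : ℕ}
    (h : ∀ e : Tor M × Fin 2, tdist e.1 x ≤ r → A e = A' e) (hy : tdist y x ≤ r) :
    trans A x y = trans A' x y := by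
  obtain ⟨h1, h2⟩ := G.lft_bound hy
  rw [abs_le] at h1 h2
  unfold trans line
  congr 1 <;> refine prod_congr rfl fun m hm => h _ ?_ <;> rw [mem_Ico] at hm
  · rw [G.smul_uv_zero]
    exact G.tdist_le_of_abs x (by rw [abs_le]; constructor <;> dsimp only <;> omega) (by simp)
  · rw [G.smul_uv_zero, G.smul_uv_one, add_assoc, ← G.prj_add]
    refine G.tdist_le_of_abs x ?_ ?_ <;> rw [abs_le] <;> constructor <;>
      simp only [Prod.mk_add_mk] <;> omega

theorem trans_shp {A : Gauge M} (hA : IsW A) {x y : Tor M} {r : ℕ} (h : Flat A x r)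
    (hy : tdist y x ≤ r) : trans (shp A) x y = trans A x y := trans_congr (shp_flat hA h) hy

theorem trans_gauge {A : Gauge M} (hA : IsW A) {z : Tor M} {r : ℕ} (hr : 2 * r + 3 ≤ M)
    (hF : Flat A z r) {x : Tor M} {i : Fin 2} (hx : tdist x z ≤ r)
    (hx' : tdist (x + uv M i) z ≤ r) : trans A z (x + uv M i) = trans A z x * A (x, i) := by
  rw [← trans_shp hA hF hx, ← trans_shp hA hF hx', ← shp_flat hA hF (x, i) hx]
  exact P144Z.trans_gauge (shp_sign A) hr (flat_shp hA hF) hx hx'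

theorem trans_sq {A : Gauge M} (hA : IsW A) {x y : Tor M} {r : ℕ} (h : Flat A x r)
    (hy : tdist y x ≤ r) : trans A x y * trans A x y = 1 := by
  rw [← trans_shp hA h hy]
  exact E3.trans_sq (shp_sign A) x y

end W

end Vale.Agent.P144Z
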