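import Vale.Agent.P144D.W.R1a

/-!
Port to edge weights.
-/

namespace Vale.Agent.P144Z.W

open Finset Matrix Filter Topology

set_option linter.unusedSectionVars false

set_option linter.unusedVariables false

namespace R1

open Vale.Agent.P144Z.R1

open RN

variable {g : Geo} {ℓ ℓ' : ℕ} {h h' β β' : ℝ} {X : Finset g.P}

end R1

namespace Geo

open Vale.Agent.P144Z.Geo

section R1

variable {g : Geo} {ℓ ℓ' : ℕ} {h h' β β' : ℝ} {X Y : Finset g.P} {F : g.E}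

variable (hA : IsW g.A) (hℓ : 1 ≤ ℓ) (hh : 0 < h) (hβ : 0 < β) (hF : F ∈ g.sub X)

include hA hℓ hh hβ hF

theorem pn_noF_le : g.pn ℓ h β X (g.noF F) ≤ g.pn ℓ h β X F := RN.pn_noF hℓ hh hβ hF

theorem pn_noB_le : g.pn ℓ h β X (g.noB F) ≤ g.pn ℓ h β X F := RN.pn_noB hℓ hh hβ hβ hF

theorem pn_dp_le (ℓ₁ : ℕ) (Y : Finset g.P) :
    g.pn ℓ h β X (g.dp ℓ₁ Y F) ≤ 2 * g.pn ℓ h β X F := by
  have h1 := RN.pn_noB hℓ hh hβ hβ hF
  have h2 := RN.pn_sub (X := X) hℓ hh hβ F (g.noB F)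
  have h3 : 0 ≤ g.pn ℓ h β X F := RN.pn_nonneg F
  unfold Geo.dp
  split_ifs <;> linarith

theorem abs_aug_le_pn : |aug (Ev.val F)| ≤ g.pn ℓ h β X F := RN.abs_aug_le_pn hℓ hh hβ F

theorem pn_db_le (k : g.K) :
    β * g.pn ℓ h β X (toEv (g.db k (Ev.val F))) ≤ g.pn ℓ h β X F := by
  have h1 := R1.nrm_del_sv hℓ hh hβ (RN.sub_loc hF) k 0
  have h2 := R1.nrm_del_sv hℓ hh hβ (del_loc (R1.sv g k 0) (RN.sub_loc hF)) k 1
  have h3 := mul_le_mul_of_nonneg_left h2 (Real.sqrt_nonneg β)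
  rw [← mul_assoc, Real.mul_self_sqrt hβ.le] at h3
  unfold Geo.pn
  rw [R1.val_db]
  exact h3.trans h1

/-- The norm of a source-free element does not depend on the source weight. -/
theorem pn_noB_eq (hβ' : 0 < β') : g.pn ℓ h β' X (g.noB F) = g.pn ℓ h β X (g.noB F) := by
  have h1 := RN.pn_noB hℓ hh hβ hβ' (noB_mem hF)
  have h2 := RN.pn_noB hℓ hh hβ' hβ (noB_mem hF)
  rw [noB_noB] at h1 h2
  exact le_antisymm h1 h2

/-- The norm of an element of the source algebra does not depend on the scale and the radius. -/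
theorem pn_noF_eq (hℓ' : 1 ≤ ℓ') (hh' : 0 < h') :
    g.pn ℓ' h' β X (g.noF F) = g.pn ℓ h β X (g.noF F) := by
  have h1 := R1.pn_noF' hℓ hh hβ hℓ' hh' (noF_mem hF)
  have h2 := R1.pn_noF' hℓ' hh' hβ hℓ hh (noF_mem hF)
  rw [noF_noF] at h1 h2
  exact le_antisymm h1 h2

theorem pn_mono (hh' : 0 < h') (hβ' : 0 < β') (h1 : h' ≤ h) (h2 : β' ≤ β) :
    g.pn ℓ h' β' X F ≤ g.pn ℓ h β X F := RN.pn_mono hℓ hh' hβ' h1 h2 subset_rfl hF

open Classical in
/-- Increase of the source weight. -/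
theorem pn_weight (h1 : β ≤ β') : g.pn ℓ h β' X F ≤
    (4 * β' / β) ^ (univ.filter fun k => (g.src k).y ∈ X).card * g.pn ℓ h β X F := by
  have h2 : 1 ≤ β' / β := (one_le_div hβ).2 h1
  have h3 : √(β' / β) ^ 2 = β' / β := Real.sq_sqrt (by linarith)
  have h4 := RN.pn_beta hℓ hh hβ (hβ.trans_le h1) (Real.one_le_sqrt.2 h2)
    (by rw [h3, div_mul_cancel₀ _ hβ.ne']) hF
  rw [pow_mul, mul_pow, h3, show (2 : ℝ) ^ 2 * (β' / β) = 4 * β' / β by ring] at h4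
  convert h4

/-- Rescaling of the fields. -/
theorem pn_scale {t : ℝ} (ht : |t - 1| ≤ 1) :
    g.pn ℓ h β X (evMap (t • res (Set.range Sum.inl) + res (Set.range Sum.inr)) F - F)
      ≤ 2 * |t - 1| * g.pn ℓ (2 * h) β X F := by
  refine RN.pn_le hℓ hh hβ (Subalgebra.sub_mem _ (R1.scale_mem t hF) hF) fun r hr => ?_
  rw [map_sub, val_evMap, R1.scale_eq]
  rcases eq_or_ne t 1 with rfl | h1
  · rw [sub_self, zero_smul, add_zero, R1.map_id', sub_self, map_zero, A5.opn_zero, abs_zero,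
      mul_zero, zero_mul]
  have h2 : 0 < |t - 1| := abs_pos.2 (sub_ne_zero.2 h1)
  refine R1.opn_pert (fun r hr => RN.le_pn hℓ (by positivity) hβ hF hr) _ r h2 ht fun p hp => ?_
  rw [LinearMap.smul_apply, map_smul, A5.opn_rsmul, mul_div_cancel_left₀ _ h2.ne']
  rcases RN.cons_cases hp with ⟨z, hz, δ, c, s1, hc, hd, rfl⟩ | ⟨k, i, hy, rfl⟩
  · dsimp only
    rw [RN.prF_ex]
    have := RN.In.fld hr hz s1 hc hd
    linarith
  · dsimp only
    rw [RN.prF_src, RN.opn_Psi_zero, add_zero]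
    exact RN.In.src hr hy i

/-- Change of scale with a uniform factor. -/
theorem pn_sch {κ ρ : ℝ} (hκ : 0 ≤ κ) (hℓℓ : ℓ ≤ ℓ') (hh' : 0 < h')
    (hs : ∀ z ∈ X, g.Sch ℓ ℓ' κ z) (hρ0 : 0 < ρ) (hρ : h' * κ ≤ ρ * h) :
    (ρ ≤ 1 → g.pn ℓ' h' β X F ≤ g.pn ℓ h β X F) ∧
      (ρ ≤ 1 / 2 → g.noF F = 0 → g.pn ℓ' h' β X F ≤ 2 * ρ ^ 2 * g.pn ℓ h β X F) :=
  ⟨fun h1 => RN.pn_shr hℓ hℓℓ hh hh' hβ le_rfl subset_rfl hκ hs
      (hρ.trans (mul_le_of_le_one_left hh.le h1)) hF,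
    fun h1 h0 => RN.pn_small hℓ hℓℓ hh hh' hβ le_rfl subset_rfl hκ hs hρ0 h1 hρ hF h0⟩

omit hA hℓ hh hβ hF in
theorem pn_bv (k : g.K) (hA : IsW g.A) (hℓ : 1 ≤ ℓ) (hh : 0 < h) (hβ : 0 < β)
    (hk : (g.src k).y ∈ X) : g.pn ℓ h β X (g.bv k) ≤ β := by
  have h1 : ∀ i, nrm (g.cons ℓ h β X) (g.gens X) (psi (R1.sv g k i)) ≤ √β := fun i =>
    nrm_psi (RN.adm hℓ hh hβ X) (Or.inr ⟨k, i, hk, rfl⟩) fun s hs =>
      Pi.single_eq_of_ne (fun e => hs (by rw [e]; exact hk)) _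
  unfold Geo.pn
  rw [R1.val_bv]
  refine (nrm_mul (RN.adm hℓ hh hβ X) _ _).trans ?_
  exact (mul_le_mul (h1 0) (h1 1) (nrm_nonneg _) (Real.sqrt_nonneg _)).trans_eq
    (Real.mul_self_sqrt hβ.le)

omit hA hℓ hh hβ hF in
/-- The coefficient of the product of all source variables. -/
theorem exists_top (g : Geo) : ∃ top : g.E →ₗ[ℝ] ℝ,
    (∀ a : g.K → ℝ, top (NormedSpace.exp (∑ k, a k • g.bv k)) = ∏ k, a k) ∧
    (∀ s F, top (g.scB s F) = s ^ Fintype.card g.K * top F) ∧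
    ∀ (ℓ : ℕ) (h β : ℝ), IsW g.A → 1 ≤ ℓ → 0 < h → 0 < β → ∀ F,
      β ^ Fintype.card g.K * |top F| ≤ g.pn ℓ h β univ F := by
  refine ⟨aug.toLinearMap ∘ₗ R1.dbs g univ.toList ∘ₗ (Ev.val (S := g.S)).toLinearMap,
    fun a => ?_, fun s F => ?_, fun ℓ h β _ hℓ hh hβ F => ?_⟩
  · show aug (R1.dbs g univ.toList (Ev.val _)) = _
    rw [KP.exp_sum', prod_congr rfl fun k _ => exp_sq_zero (I2.smul_sq (bv_sq k) (a k)),
      ← prod_map_toList, R1.dbs_prod a _ (nodup_toList _), prod_map_toList, map_smul, map_one,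
      smul_eq_mul, mul_one]
  · show aug (R1.dbs g univ.toList (Ev.val (evMap _ F))) = _ * aug (R1.dbs g univ.toList (Ev.val F))
    rw [val_evMap, R1.dbs_scB, map_smul, aug_map, length_toList, card_univ, smul_eq_mul]
  · show _ * |aug (R1.dbs g univ.toList (Ev.val F))| ≤ _
    have key := A3.abs_dls_le (RN.adm hℓ hh hβ univ) (R1.loc_univ (Ev.val F))
      (fun i : g.K × Fin 2 => R1.sv g i.1 i.2) (fun _ => √β) (fun _ => Real.sqrt_pos.2 hβ)
      (fun p hp => by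
        rcases RN.cons_cases hp with ⟨z, hz, δ, c, s1, hc, hd, rfl⟩ | ⟨k, i, hy, rfl⟩
        · simp only [RN.ex_dot_src, abs_zero, mul_zero, sum_const_zero]
          positivity
        · dsimp only
          rw [sum_eq_single (k, i) (fun j _ hj => by
            rw [R1.sv_dot, if_neg (Ne.symm hj), abs_zero, mul_zero]) (fun h => (h (mem_univ _)).elim),
            R1.sv_dot, if_pos rfl, abs_one, mul_one])
      (univ.toList.flatMap fun k => [(k, (0 : Fin 2)), (k, 1)])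
    have e : ∀ l : List g.K, ((l.flatMap fun k => [(k, (0 : Fin 2)), (k, 1)]).map
        fun _ => √β).prod = β ^ l.length := fun l => by
      induction l with
      | nil => simp
      | cons k l ih =>
        rw [List.flatMap_cons, List.map_append, List.prod_append, ih, List.length_cons, pow_succ']
        simp [Real.mul_self_sqrt hβ.le]
    rwa [← R1.dbs_eq, e, length_toList, card_univ] at key

end R1

end Geo

end Vale.Agent.P144Z.W
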