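import Vale.Agent.P144Z.R3.Main
import Vale.Agent.P144D.W.R1

/-!
Port to edge weights.
-/

namespace Vale.Agent.P144Z.W

open Finset Matrix

namespace R3

open Vale.Agent.P144Z.R3

section tf

variable {M : ℕ} [NeZero M] {A : Gauge M} {x : Tor M}

theorem trans_add (hA : IsW A) (hM : 8 ≤ M) (hx : Flat A x 2) (i : Fin 2) :
    trans A x (x + uv M i) = A (x, i) := by
  have h := trans_gauge hA (z := x) (r := 2) (by omega) hx (x := x) (i := i)
    (by rw [tdist_self]; omega) ((tdist_uv x i).trans (by omega))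
  rw [h, trans_self, one_mul]

theorem trans_sub (hA : IsW A) (hM : 8 ≤ M) (hx : Flat A x 2) (i : Fin 2) :
    trans A x (x - uv M i) = A (x - uv M i, i) := by
  have h := trans_gauge hA (z := x) (r := 2) (by omega) hx (x := x - uv M i) (i := i)
    ((E3.tdist_sub_uv x i).trans (by omega)) (by rw [sub_add_cancel, tdist_self]; omega)
  rw [sub_add_cancel, trans_self] at h
  have h2 := flat_sq hA hx (e := (x - uv M i, i)) ((E3.tdist_sub_uv x i).trans (by omega))
  calc trans A x (x - uv M i) = trans A x (x - uv M i) * (A (x - uv M i, i) * A (x - uv M i, i)) := by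
        rw [h2, mul_one]
    _ = _ := by rw [← mul_assoc, ← h, one_mul]

theorem val0 (hA : IsW A) (hM : 8 ≤ M) (hx : Flat A x 2) (a : Fin 2) :
    Val A x (tf0 A x a) (kv a) 0 where
  mid c := by rw [tf0, trans_self, one_mul]
  up i c := by simp only [tf0, trans_add hA hM hx, Pi.zero_apply, add_zero]
  down i c := by simp only [tf0, trans_sub hA hM hx, Pi.zero_apply, sub_zero]

theorem val1 (hA : IsW A) (hM : 8 ≤ M) (hx : Flat A x 2) (b j : Fin 2) :
    Val A x (tf1 A x b j) (mv b j) (fun i => if j = i then kv b else 0) where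
  mid c := by simp only [tf1, trans_self, crd_self, Int.cast_zero, zero_mul, zero_add, one_mul]
  up i c := by
    simp only [tf1, trans_add hA hM hx, crd_up hM]
    split_ifs <;> simp [add_comm]
  down i c := by
    simp only [tf1, trans_sub hA hM hx, crd_down hM]
    split_ifs <;> simp [sub_eq_add_neg, add_comm]

theorem val_dfld (hA : IsW A) (hx : Flat A x 2) {u : Tor M × Fin 4 → ℝ} {v : Fin 4 → ℝ} {d : Fin 2 → Fin 4 → ℝ}
    (h : Val A x u v d) (b i : Fin 2) : dfld A x b i ⬝ᵥ u = kv b ⬝ᵥ d i := by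
  have h1 := flat_sq hA hx (e := (x, i)) (by rw [tdist_self]; omega)
  have h2 := flat_sq hA hx (e := (x - uv M i, i)) ((E3.tdist_sub_uv x i).trans (by omega))
  simp only [P144Z.dfld, smul_dotProduct, sub_dotProduct, E3.fld_dot, h.up, h.down, smul_eq_mul]
  simp only [dotProduct, Fin.sum_univ_four]
  linear_combination
    (1 / 2 * (kv b 0 * (v 0 + d i 0) + kv b 1 * (v 1 + d i 1) + kv b 2 * (v 2 + d i 2) +
      kv b 3 * (v 3 + d i 3))) * h1 -
    (1 / 2 * (kv b 0 * (v 0 - d i 0) + kv b 1 * (v 1 - d i 1) + kv b 2 * (v 2 - d i 2) +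
      kv b 3 * (v 3 - d i 3))) * h2

end tf

variable {g : Geo} {x : g.P} {u w : Tor g.M × Fin 4 → ℝ} {v v' : Fin 4 → ℝ}
  {d d' : Fin 2 → Fin 4 → ℝ}

theorem bL_up (hA : IsW g.A) (hx : Flat g.A x 2) (hu : Val g.A x u v d) (hw : Val g.A x w v' d')
    (i : Fin 2) :
    bL g (g.ex u) (g.ex w) (g.edge x i) =
      v (if i = 0 then 0 else 1) * (v' + d' i) (if i = 0 then 2 else 3) -
        (v + d i) (if i = 0 then 2 else 3) * v' (if i = 0 then 0 else 1) := by
  rw [bL_edge, hu.mid, hw.mid, hu.up, hw.up]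
  simp only [Pi.add_apply]
  linear_combination (v (if i = 0 then 0 else 1) *
    (v' (if i = 0 then 2 else 3) + d' i (if i = 0 then 2 else 3)) -
    (v (if i = 0 then 2 else 3) + d i (if i = 0 then 2 else 3)) * v' (if i = 0 then 0 else 1)) *
    flat_sq hA hx (e := (x, i)) (by rw [tdist_self]; omega)

theorem bL_down (hA : IsW g.A) (hx : Flat g.A x 2) (hu : Val g.A x u v d)
    (hw : Val g.A x w v' d') (i : Fin 2) :
    bL g (g.ex u) (g.ex w) (g.edge (x - uv g.M i) i) =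
      (v - d i) (if i = 0 then 0 else 1) * v' (if i = 0 then 2 else 3) -
        v (if i = 0 then 2 else 3) * (v' - d' i) (if i = 0 then 0 else 1) := by
  rw [bL_edge, sub_add_cancel, hu.mid, hw.mid, hu.down, hw.down]
  simp only [Pi.sub_apply]
  linear_combination ((v (if i = 0 then 0 else 1) - d i (if i = 0 then 0 else 1)) *
    v' (if i = 0 then 2 else 3) - v (if i = 0 then 2 else 3) *
    (v' (if i = 0 then 0 else 1) - d' i (if i = 0 then 0 else 1))) *
    flat_sq hA hx (e := (x - uv g.M i, i)) ((E3.tdist_sub_uv x i).trans (by omega))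

theorem bL_O1 (hA : IsW g.A) (hx : Flat g.A x 2) (hu : Val g.A x u v d)
    (hw : Val g.A x w v' d') :
    bL g (g.ex u) (g.ex w) (g.O1 x) =
      v 0 * v' 2 - v 2 * v' 0 + (v 1 * v' 3 - v 3 * v' 1) +
      (v 0 * d' 0 2 - d 0 2 * v' 0 - d 0 0 * v' 2 + v 2 * d' 0 0 +
        (v 1 * d' 1 3 - d 1 3 * v' 1 - d 1 1 * v' 3 + v 3 * d' 1 1)) / 2 := by
  rw [Geo.O1, map_smul, map_sum]
  simp only [map_add, bL_up hA hx hu hw, bL_down hA hx hu hw, Fin.sum_univ_two, smul_eq_mul,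
    Pi.add_apply, Pi.sub_apply, if_true, one_ne_zero, if_false]
  ring

section coef

variable (hA : IsW g.A) (hM : 8 ≤ g.M) (hx : Flat g.A x 2)

include hA hM hx

theorem cM_edge (i : Fin 2) : g.cM x (Ev.val (g.edge x i)) = -1 / 2 := by
  have h := E3.sq2
  rw [cM_eq, bL_up hA hx (val0 hA hM hx 0) (val0 hA hM hx 1)]
  fin_cases i <;> simp [kv] <;> linarith [h]

theorem cM_O1 : g.cM x (Ev.val (g.O1 x)) = -1 := by
  have h := E3.sq2
  rw [cM_eq, bL_O1 hA hx (val0 hA hM hx 0) (val0 hA hM hx 1)]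
  simp [kv]
  linarith [h]

theorem cM_O2 : g.cM x (Ev.val (g.O2 x)) = 0 := by
  have h := E3.sq2
  rw [cM_eq, Geo.O2, map_add, map_smul, ← cM_eq x (g.O1 x), cM_O1 hA hM hx,
    bL_site (val0 hA hM hx 0) (val0 hA hM hx 1)]
  simp [kv, tc]
  linarith [h]

theorem cK_O1 (a b j : Fin 2) : g.cK x (Ev.val (g.O1 x)) a b j = Geo.kt a b j / 4 := by
  have h := E3.sq2
  have h3 : √2 * √2 * √2 = (2 : ℝ) * √2 := by rw [h]
  rw [cK_eq, bL_O1 hA hx (val0 hA hM hx a) (val1 hA hM hx b j)]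
  fin_cases a <;> fin_cases b <;> fin_cases j <;> simp [kv, mv, nv, Geo.kt] <;> linarith [h, h3]

theorem cK_O2 (a b j : Fin 2) : g.cK x (Ev.val (g.O2 x)) a b j = tc * Geo.kt a b j / 4 := by
  have h := E3.sq2
  have h3 : √2 * √2 * √2 = (2 : ℝ) * √2 := by rw [h]
  rw [cK_eq, Geo.O2, map_add, map_smul, ← cK_eq x (g.O1 x), cK_O1 hA hM hx,
    bL_site (val0 hA hM hx a) (val1 hA hM hx b j), smul_eq_mul, mul_div_assoc, add_eq_right]
  fin_cases a <;> fin_cases b <;> fin_cases j <;> simp [kv, mv, nv] <;> linarith [h, h3]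

theorem cM_bp (a b i : Fin 2) : bL g (g.ex (tf0 g.A x 0)) (g.ex (tf0 g.A x 1))
    (bp g (fld x a) (dfld g.A x b i)) = 0 := by
  rw [bL_bp, val_dfld hA hx (val0 hA hM hx 0), val_dfld hA hx (val0 hA hM hx 1)]
  simp

theorem cK_bp (a b i a' b' i' : Fin 2) : bL g (g.ex (tf0 g.A x a')) (g.ex (tf1 g.A x b' i'))
    (bp g (fld x a) (dfld g.A x b i)) = if a = a' ∧ b = b' ∧ i = i' then 1 else 0 := by
  rw [bL_bp, val_dfld hA hx (val0 hA hM hx a'), val_dfld hA hx (val1 hA hM hx b' i'),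
    (val0 hA hM hx a').fld,
    kv_dot]
  by_cases h : i' = i
  · subst h
    by_cases h1 : a = a' <;> by_cases h2 : b = b' <;> simp [kv_dot, h1, h2]
  · simp [h, Ne.symm h]

end coef

end R3

namespace Geo

open Vale.Agent.P144Z.Geo

open Vale.Agent.P144Z.R3 hiding trans_add trans_sub val0 val1 bL_up bL_down bL_O1 cM_edge cM_O1 cM_O2 cK_O1 cK_O2 cM_bp cK_bp

open Vale.Agent.P144Z.W.R3

variable {g : Geo}

/-- The coefficients of the two densities. -/
theorem coef_O (hA : IsW g.A) (hM : 8 ≤ g.M) {x : g.P} (hx : Flat g.A x 2) :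
    g.nu x (g.O1 x) = 1 ∧ g.ze x (g.O1 x) = 0 ∧ g.nu x (g.O2 x) = 0 ∧ g.ze x (g.O2 x) = 1 ∧
      ∀ i, g.cM x (Ev.val (g.edge x i)) = -1 / 2 := by
  have h1 : g.nu x (g.O1 x) = 1 := by rw [nu, cM_O1 hA hM hx, neg_neg]
  have h2 : g.nu x (g.O2 x) = 0 := by rw [nu, cM_O2 hA hM hx, neg_zero]
  refine ⟨h1, ?_, h2, ?_, cM_edge hA hM hx⟩
  · simp only [ze, h1, cK_O1 hA hM hx, Fin.sum_univ_two]
    simp [kt]
    norm_num
  · simp only [ze, h2, cK_O2 hA hM hx, Fin.sum_univ_two]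
    rw [div_eq_one_iff_eq tc_pos.ne']
    simp [kt]
    ring

/-- The extracted term has the same relevant and marginal part. -/
theorem coef_Ext (hA : IsW g.A) (hM : 8 ≤ g.M) {x : g.P} (hx : Flat g.A x 2) (F : g.E) :
    g.cM x (Ev.val (g.Ext x F)) = g.cM x (Ev.val F) ∧
      ∀ a b i, g.cK x (Ev.val (g.Ext x F)) a b i = g.cK x (Ev.val F) a b i := by
  refine ⟨?_, fun a b i => ?_⟩
  · rw [cM_eq x (g.Ext x F), Ext_eq]
    simp only [map_add, map_smul, map_sum, cM_bp hA hM hx, smul_zero, sum_const_zero, add_zero]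
    rw [← cM_eq, ← cM_eq, cM_O1 hA hM hx, cM_O2 hA hM hx, nu]
    simp
  · rw [cK_eq x (g.Ext x F), Ext_eq]
    simp only [map_add, map_smul, map_sum, cK_bp hA hM hx]
    rw [← cK_eq, ← cK_eq, cK_O1 hA hM hx, cK_O2 hA hM hx]
    simp only [smul_eq_mul, ite_and, mul_ite, mul_one, mul_zero, sum_ite_eq', mem_univ, if_true,
      sum_ite_irrel, sum_const_zero]
    ring

end Geo

end Vale.Agent.P144Z.W
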