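import Vale.Agent.P144D.W.Base

/-!
The flow with a local scalar correction of the interaction.
-/

namespace Vale.Agent.P144Z

open Finset Matrix

/-- Scalar corrections of the interaction. -/
abbrev Cor (M : ℕ) : Type := Finset (Tor M) → (Tor M × Fin 2 → Bool) → ℝ

/-- The term `c X` only depends on the edges inside `X`. -/
structure Cor.Ok {M : ℕ} (c : Cor M) : Prop where
  empty : ∀ n, c ∅ n = 0
  dep : ∀ X n n', (∀ e : Tor M × Fin 2, e.1 ∈ X → e.1 + uv M e.2 ∈ X → n e = n' e) →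
    c X n = c X n'

/-- The terms have diameter at most `R` and total size at most `γ` at each point. -/
def Cor.Le {M : ℕ} [NeZero M] (c : Cor M) (R : ℕ) (γ : ℝ) : Prop :=
  ∃ b : Finset (Tor M) → ℝ, (∀ X n, |c X n| ≤ b X) ∧
    (∀ X, b X ≠ 0 → ∀ x ∈ X, ∀ y ∈ X, tdist x y ≤ R) ∧
    ∀ x, ∑ X ∈ univ.filter (fun X => x ∈ X), b X ≤ γ

/-- A nearest-neighbour part of size `γ` and a part of range `2 R + 2` of size `δ`. -/
def Cor.Sm {M : ℕ} [NeZero M] (c : Cor M) (R : ℕ) (γ δ : ℝ) : Prop :=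
  ∃ c₁ c₂ : Cor M, c = c₁ + c₂ ∧ c₁.Le 1 γ ∧ c₂.Le (2 * R + 2) δ

/-- The signed contour sum with a correction. -/
noncomputable def ZwC {M : ℕ} [NeZero M] (q : Par) (c : Cor M) (A : Gauge M)
    (Φ : (Tor M × Fin 2 → Bool) → ℝ) : ℝ :=
  ∑ n, cw n * wt A q.x n * Real.exp (uint q n + ∑ X, c X n) * Φ n

namespace Geo

variable (g : Geo)

/-- The corrected interaction. -/
noncomputable def HinC (q : Par) (c : Cor g.M) (X : Finset g.P) (n : g.Cfg) : g.E :=
  g.Hin q X n + c X n • (1 : g.E)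

/-- The initial potential with its constants. -/
noncomputable def W0C (q : Par) (c : Cor g.M) : Finset g.P → g.E :=
  Cl (g.E0 (q.x * q.Z)) (g.HinC q c)

/-- The initial state. -/
noncomputable def initC (q : Par) (c : Cor g.M) : g.St where
  K X := g.W0C q c X - g.noF (g.W0C q c X) -
    ∑ k ∈ univ.filter (fun k => g.put (g.src k).y (g.src k).Y = X), g.z0 q k • g.bE k
  v := (g.init q).v
  z := g.z0 q

/-- The flow. -/
noncomputable def flowC (L : ℕ) (q : Par) (c : Cor g.M) : ℕ → g.St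
  | 0 => g.initC q c
  | j + 1 => g.step j (sc L j) (sc L (j + 1)) 0 (flowC L q c j)

/-- The constants of the initial step and of the flow. -/
noncomputable def csC (L : ℕ) (q : Par) (c : Cor g.M) : ℕ → Finset g.P → g.E
  | 0 => fun U => g.noF (g.W0C q c U)
  | j + 1 => fun U => g.noF (g.intg (sc L j) (sc L (j + 1)) (g.flowC L q c j) U)

/-- The localized logarithms of the flow up to the step `N` are logarithms. -/
structure ConvC (L : ℕ) (q : Par) (c : Cor g.M) (N : ℕ) : Prop where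
  init : NormedSpace.exp (∑ U, g.W0C q c U) =
    g.E0 (q.x * q.Z) (NormedSpace.exp (∑ X, g.HinC q c X))
  step : ∀ j < N, g.ExpId (covP (Dm g.A) (sc L j) (sc L (j + 1))) (g.flowC L q c j)

/-- The squares of radius `T` around `c` and `c'` are gauge equivalent, with the same
corrections. -/
structure MatchC (g g' : Geo) (u : Cor g.M) (u' : Cor g'.M) (c : g.P) (c' : g'.P) (T : ℕ) :
    Prop where
  le : 4 * T + 1 ≤ g.M
  le' : 4 * T + 1 ≤ g'.M
  fl : ∀ f, tdist f c ≤ T → flux g'.A (shf c c' f) = flux g.A f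
  gauge : ∃ ε : g.P → ℝ, IsSign ε ∧ ∀ x i, tdist x c ≤ T → tdist (x + uv g.M i) c ≤ T →
    g'.A (shf c c' x, i) = ε x * ε (x + uv g.M i) * g.A (x, i)
  cor : ∀ X : Finset g.P, (∀ x ∈ X, tdist x c ≤ T) → ∀ n',
    u' (X.image (shf c c')) n' = u X fun e => n' (shf c c' e.1, e.2)

theorem HinC_zero (q : Par) : g.HinC q 0 = g.Hin q := by
  funext X n
  simp [HinC]

theorem W0C_zero (q : Par) : g.W0C q 0 = g.W0 q := by rw [W0C, HinC_zero, W0]

theorem initC_zero (q : Par) : g.initC q 0 = g.init q := by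
  rw [initC, W0C_zero]
  rfl

theorem flowC_zero (L : ℕ) (q : Par) (j : ℕ) : g.flowC L q 0 j = g.flow L q 0 j := by
  induction j with
  | zero => exact g.initC_zero q
  | succ j ih =>
    rw [flowC, ih]
    rfl

theorem csC_zero (L : ℕ) (q : Par) (j : ℕ) : g.csC L q 0 j = g.cs L q j := by
  cases j with
  | zero => simp only [csC, cs, W0C_zero]
  | succ j =>
    funext U
    simp only [csC, cs, cst, flowC_zero]

end Geo

theorem Cor.ok_zero (M : ℕ) : Cor.Ok (0 : Cor M) := ⟨fun _ => rfl, fun _ _ _ _ => rfl⟩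

theorem ZwC_zero {M : ℕ} [NeZero M] (q : Par) (A : Gauge M) (Φ : (Tor M × Fin 2 → Bool) → ℝ) :
    ZwC q 0 A Φ = Zw q A Φ := by simp [ZwC, Zw]

end Vale.Agent.P144Z
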