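import Vale.Agent.P144Z.RN.Exp
import Vale.Agent.P144D.W.Base

/-!
Port to edge weights.
-/

namespace Vale.Agent.P144Z.W.RN

open Vale.Agent.P144Z.RN

open Finset Matrix

set_option linter.unusedSectionVars false

variable {g : Geo}

/-- One step of integration. -/
theorem isExp_covP : ∃ C : ℝ, 1 ≤ C ∧ ∀ (g : Geo), IsW g.A → ∀ (ℓ ℓ' : ℕ) (h8 : 8 ≤ ℓ)
    (hl : ℓ ≤ ℓ') (h β : ℝ) (hh : 0 < h) (hβ : 0 < β), C * ℓ' / ℓ ≤ h →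
    IsExp (szAt g.M ℓ' (by omega)) (locSys g (ℓ := ℓ) (by omega) hh hβ)
      (locSys g (ℓ := ℓ) (by omega) (half_pos hh) hβ) 0 (evG (g.exM (covP (Dm g.A) ℓ ℓ'))) := by
  obtain ⟨C, hC, h1⟩ := gram_covP
  refine ⟨4 * C, by linarith, fun g hA ℓ ℓ' h8 hl h β hh hβ hle => ?_⟩
  refine isExp_evG (covP_anti (isD_Dm hA).anti _ _) _ (h1 _ _ (isD_Dm hA) ℓ ℓ' h8 hl)
    (by positivity) hh _ ?_ hβ _ fun s s' hs => covP_range _ hl (by omega) (not_le.1 hs)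
  have : 4 * C * ℓ' / ℓ = 4 * (C * ℓ' / ℓ) := by ring
  linarith

/-- The last integration. -/
theorem isExp_covL : ∃ C : ℝ, 1 ≤ C ∧ ∀ (g : Geo), IsW g.A → ∀ (ℓ : ℕ) (h8 : 8 ≤ ℓ) (γ : ℝ),
    ℓ ≤ γ → (∀ v, (Dm g.A *ᵥ v) ⬝ᵥ (Dm g.A *ᵥ v)
      ≤ γ ^ 2 * (((Dm g.A * Dm g.A) *ᵥ v) ⬝ᵥ ((Dm g.A * Dm g.A) *ᵥ v))) →
    ∀ (h β : ℝ) (hh : 0 < h) (hβ : 0 < β), C * γ / ℓ ≤ h →
    IsExp (szAll g.P) (locSys g (ℓ := ℓ) (by omega) hh hβ)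
      (locSys g (ℓ := ℓ) (by omega) (half_pos hh) hβ) 0 (evG (g.exM (covL (Dm g.A) ℓ))) := by
  obtain ⟨C, hC, h1⟩ := gram_covL
  refine ⟨4 * C, by linarith, fun g hA ℓ h8 γ hγ hD h β hh hβ hle => ?_⟩
  have h0 : 0 ≤ γ := (Nat.cast_nonneg ℓ).trans hγ
  refine isExp_evG (covL_anti (isD_Dm hA).anti _) _ (h1 _ _ (isD_Dm hA) ℓ γ h8 hγ hD)
    (by positivity) hh _ ?_ hβ _ fun s s' hs => (hs trivial).elim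
  have : 4 * C * γ / ℓ = 4 * (C * γ / ℓ) := by ring
  linarith

end Vale.Agent.P144Z.W.RN
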