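import Vale.Agent.P144D.W.R4a

/-!
The estimates near a flux for edge weights.
-/

namespace Vale.Agent.P144Z.W

open Finset Matrix

section

variable {M : ℕ} [NeZero M]

theorem supp_pow (A : Gauge M) {u : Tor M × Fin 4 → ℝ} {f : Tor M} {r : ℕ} (hu : SuppIn u f r)
    (k : ℕ) : SuppIn ((Dm A ^ k) *ᵥ u) f (r + k) := by
  induction k with
  | zero => simpa using hu
  | succ k ih =>
    intro s hs
    rw [pow_succ', ← mulVec_mulVec]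
    refine sum_eq_zero fun t _ => ?_
    by_cases h : Dm A s t = 0
    · exact mul_eq_zero_of_left h _
    · have h1 := C.Dm_near A h
      have h2 := tdist_triangle s.1 t.1 f
      exact mul_eq_zero_of_right _ (ih t (by omega))

theorem hsq_supp {A A' : Gauge M} {u : Tor M × Fin 4 → ℝ} {f : Tor M} {r : ℕ}
    (hu : SuppIn u f r) (h : ∀ e : Tor M × Fin 2, tdist e.1 f ≤ r + 8 → A e = A' e) (t : ℝ)
    (B : Finset (Tor M)) : hsq A t B u = hsq A' t B u := by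
  refine sum_congr rfl fun k hk => ?_
  rw [mem_range] at hk
  congr 1
  refine E3.l2sq_congr fun x _ a => ?_
  by_cases hx : tdist x f ≤ r + k
  · exact Dm_pow_congr u k (r + k) (fun e he => h e (by omega)) x a hx
  · rw [supp_pow A hu k (x, a) (not_le.1 hx), supp_pow A' hu k (x, a) (not_le.1 hx)]

omit [NeZero M] in
theorem shp_face {A : Gauge M} (hA : IsW A) {e : Tor M × Fin 2} (h : |flux A e.1| = 1) :
    A e = shp A e := by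
  obtain ⟨x, i⟩ := e
  have h1 := face_sign hA h
  fin_cases i
  · exact (shp_eq h1.1).symm
  · exact (shp_eq h1.2.2.2).symm

end

/-- Decomposition of a field near a flux. -/
theorem flux_est : ∃ C : ℝ, 1 ≤ C ∧ ∀ (M : ℕ) [NeZero M] (A : Gauge M), IsW A →
    ∀ (f : Tor M) (ρ : ℕ), 256 ≤ ρ → 8 * ρ ≤ M → flux A f = -1 →
    (∀ f', f' ≠ f → tdist f' f ≤ 3 * ρ + 4 → flux A f' = 1) →
    ∃ u : Tor M × Fin 4 → ℝ, SuppIn u f (ρ / 4) ∧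
      (∀ (z : Tor M) (ℓ : ℕ), 1 ≤ ℓ → ℓ ≤ ρ → hsq A ℓ (ball z (2 * ℓ)) u ≤ C * ℓ) ∧
      ∀ z, tdist z f ≤ ρ → ∀ g : Tor M × Fin 4 → ℝ,
        (cnr f ⬝ᵥ g) ^ 2 * ρ ≤ C * hsq A ρ (ball z (2 * ρ)) g ∧
        ∀ ℓ : ℕ, 1 ≤ ℓ → ℓ ≤ ρ → hsq A ℓ (ball z (2 * ℓ)) (g - (cnr f ⬝ᵥ g) • u)
          ≤ C * ((ℓ : ℝ) / ρ) ^ 2 * hsq A ρ (ball z (2 * ρ)) g := by
  obtain ⟨C, hC, H⟩ := P144Z.flux_est
  refine ⟨C, hC, fun M _ A hA f ρ hρ hM hf hfl => ?_⟩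
  have h1 : ∀ f', tdist f' f ≤ 3 * ρ + 4 → |flux A f'| = 1 := fun f' h => by
    by_cases e : f' = f
    · rw [e, hf, abs_neg, abs_one]
    · rw [hfl f' e h, abs_one]
  have h2 : ∀ e : Tor M × Fin 2, tdist e.1 f ≤ 3 * ρ + 4 → A e = shp A e := fun e h =>
    shp_face hA (h1 _ h)
  have h3 : ∀ z, tdist z f ≤ ρ → ∀ r ≤ 2 * ρ, ∀ t g,
      hsq A t (ball z r) g = hsq (shp A) t (ball z r) g := fun z hz r hr t g =>
    hsq_congrA (fun e he => h2 e (by have := tdist_triangle e.1 z f; omega)) t g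
  obtain ⟨u, u1, u2, u3⟩ := H M _ (shp_sign A) f ρ hρ hM
    (by rw [flux_shp hA (h1 f (by rw [tdist_self]; omega)), hf])
    fun f' e h => by rw [flux_shp hA (h1 f' (by omega)), hfl f' e (by omega)]
  refine ⟨u, u1, fun z ℓ a b => ?_, fun z hz g => ⟨?_, fun ℓ a b => ?_⟩⟩
  · rw [hsq_supp u1 fun e he => h2 e (by omega)]
    exact u2 z ℓ a b
  · rw [h3 z hz _ le_rfl]
    exact (u3 z hz g).1
  · rw [h3 z hz _ le_rfl, h3 z hz _ (by omega)]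
    exact (u3 z hz g).2 ℓ a b

namespace RN

open Vale.Agent.P144Z.RN

theorem exists_sing : ∃ b : ℝ, 1 ≤ b ∧ ∀ (M : ℕ) [NeZero M] (A : Gauge M), IsW A →
    ∀ (f : Tor M) (ℓ ℓ' : ℕ), 1 ≤ ℓ → ℓ ≤ ℓ' → 256 ≤ ℓ' → 8 * ℓ' ≤ M → flux A f = -1 →
    (∀ f', f' ≠ f → tdist f' f ≤ 3 * ℓ' + 4 → flux A f' = 1) →
    ∀ κ : ℝ, b ^ 2 * ℓ ≤ κ ^ 2 * ℓ' → ∃ u, Sing A ℓ ℓ' f u b κ := by
  obtain ⟨C, hC, h1⟩ := flux_est
  refine ⟨√C, Real.one_le_sqrt.2 hC, fun M _ A hA f ℓ ℓ' hℓ hl h2 hM hf hs κ hκ => ?_⟩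
  have e : √C ^ 2 = C := Real.sq_sqrt (by linarith)
  obtain ⟨u, u1, u2, u3⟩ := h1 M A hA f ℓ' h2 hM hf hs
  refine ⟨u, u1, fun z => by rw [e]; exact u2 z ℓ hℓ hl, fun z hz w => by
    rw [e]; exact (u3 z hz w).1, fun z hz w => ?_⟩
  rw [e] at hκ
  have h3 := mul_le_mul_of_nonneg_right ((u3 z hz w).2 ℓ hℓ hl) (Nat.cast_nonneg (α := ℝ) ℓ')
  have h4 := mul_le_mul_of_nonneg_right (sq_ratio (ℓ' := ℓ') (by omega) hκ)
    (hsq_nonneg A ℓ' (ball z (2 * ℓ')) w)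
  nlinarith

open Classical in
/-- Change of scale near separated fluxes, with a loss for each flux. -/
theorem pn_flux : ∃ C : ℝ, 1 ≤ C ∧ ∀ (g : Geo), IsW g.A → ∀ (ℓ ℓ' : ℕ), 1 ≤ ℓ → 2 * ℓ ≤ ℓ' →
    256 ≤ ℓ' → 8 * ℓ' ≤ g.M →
    (∀ f, flux g.A f = -1 → ∀ f', f' ≠ f → tdist f' f ≤ 3 * ℓ' + 4 → flux g.A f' = 1) →
    ∀ (h h' β Λ κ₀ : ℝ), 0 < h → 0 < h' → 0 < β → 1 ≤ Λ → C * h' ^ 2 * ℓ ≤ h ^ 2 * ℓ' →
    C * h' ≤ Λ * h → 0 ≤ κ₀ → h' * κ₀ ≤ h → ∀ (X : Finset g.P) (F : g.E), F ∈ g.sub X →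
    (∀ z ∈ X, (∀ f, flux g.A f = -1 → ℓ' < tdist z f) → Shr g.A ℓ ℓ' z κ₀) → g.pn ℓ' h' β X F ≤
      (2 * Λ) ^ (univ.filter fun f => flux g.A f = -1 ∧ ∃ z ∈ X, tdist z f ≤ ℓ').card *
        g.pn ℓ h β X F := by
  obtain ⟨b, hb, h1⟩ := exists_sing
  refine ⟨4 * b ^ 2, by nlinarith, fun g hA ℓ ℓ' hℓ hl h256 hM hsep h h' β Λ κ₀ hh hh' hβ hΛ
    hk1 hk2 k0 k1 X F hF hX => pn_le (by omega) hh' hβ hF fun r hr => ?_⟩
  set κ := h / (2 * h') with hκ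
  have hκ0 : 0 ≤ κ := by positivity
  have hκ1 : h' * κ = h / 2 := by rw [hκ]; field_simp
  have hκ2 : b ^ 2 * ℓ ≤ κ ^ 2 * ℓ' := by
    rw [hκ, div_pow, div_mul_eq_mul_div, le_div_iff₀ (by positivity)]
    nlinarith
  have hl0 : (0 : ℝ) ≤ ℓ := Nat.cast_nonneg ℓ
  have hex : ∀ f : {f // flux g.A f = -1 ∧ ∃ z ∈ X, tdist z f ≤ ℓ'},
      ∃ u, Sing g.A ℓ ℓ' f.1 u b κ := fun f =>
    h1 g.M g.A hA f.1 ℓ ℓ' hℓ (by omega) h256 hM f.2.1 (hsep _ f.2.1) κ hκ2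
  choose u hu using hex
  have key := opn_affine (adm hℓ hh hβ X) (fun f => g.ex (u f)) (fun f => g.ex (cnr f.1))
    (sub_loc hF) r hΛ fun p hp => by
      rcases cons_cases hp with ⟨z, hz, δ, c, s1, hc, hd, rfl⟩ | ⟨k, i, hy, rfl⟩
      · have hz0 : ∀ f, ℓ' < tdist z f.1 → g.ex δ ⬝ᵥ g.ex (u f) = 0 := fun f hf => by
          rw [ex_dot]; exact dot_eq_zero s1 (hu f).supp (by omega)
        dsimp only
        by_cases hn : ∃ f, flux g.A f = -1 ∧ tdist z f ≤ ℓ'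
        · obtain ⟨f, hf, hzf⟩ := hn
          have hz1 : ∀ f', f' ≠ ⟨f, hf, z, hz, hzf⟩ → g.ex δ ⬝ᵥ g.ex (u f') = 0 := fun f' hne => by
            refine hz0 f' ?_
            have h3 : 3 * ℓ' + 4 < tdist f'.1 f := not_le.1 fun h5 => by
              have h6 := hsep f hf f'.1 (fun e => hne (Subtype.ext e)) h5
              rw [f'.2.1] at h6
              norm_num at h6
            have h4 := tdist_triangle f'.1 z f
            rw [tdist_comm f'.1 z] at h4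
            omega
          rw [sum_eq_single ⟨f, hf, z, hz, hzf⟩ (fun j _ hj => by rw [hz1 j hj, zero_smul])
            (fun h => (h (mem_univ _)).elim), sum_eq_single ⟨f, hf, z, hz, hzf⟩
            (fun j _ hj => by rw [hz1 j hj, abs_zero, zero_mul, zero_div])
            (fun h => (h (mem_univ _)).elim), ex_dot]
          obtain ⟨b1, b2⟩ := Sing.bound hℓ (by omega) hh' hr (by linarith) hκ0
            (hu ⟨f, hf, z, hz, hzf⟩) hz hzf s1 hc hd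
          have b3 : |δ ⬝ᵥ u ⟨f, hf, z, hz, hzf⟩| * opn (r.Ψ (g.ex (cnr f))) / Λ ≤ h / 2 * c := by
            rw [div_le_iff₀ (by linarith)]
            refine b2.trans ?_
            have : h' * b ^ 2 ≤ h / 2 * Λ := by nlinarith
            nlinarith
          rw [hκ1] at b1
          linarith
        · have hz1 : ∀ f', g.ex δ ⬝ᵥ g.ex (u f') = 0 := fun f' =>
            hz0 f' (not_le.1 fun h3 => hn ⟨f'.1, f'.2.1, h3⟩)
          simp only [hz1, zero_smul, sum_const_zero, sub_zero, abs_zero, zero_mul, zero_div,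
            add_zero]
          exact (In.shr hℓ (by omega) hr hz k0 (hX z hz fun f hf => not_le.1 fun h4 =>
            hn ⟨f, hf, h4⟩) s1 hc hd).trans (mul_le_mul_of_nonneg_right k1 hc)
      · simp only [src_dot_ex, zero_smul, sum_const_zero, sub_zero, abs_zero, zero_mul, zero_div,
          add_zero]
        exact In.src hr hy i
  rwa [Fintype.card_subtype] at key

/-- Change of scale with a gain for a set near one flux. -/
theorem pn_flux_small : ∃ C : ℝ, 1 ≤ C ∧ ∀ (g : Geo), IsW g.A → ∀ (ℓ ℓ' : ℕ), 1 ≤ ℓ →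
    ℓ ≤ ℓ' → 256 ≤ ℓ' → 8 * ℓ' ≤ g.M → ∀ f, flux g.A f = -1 →
    (∀ f', f' ≠ f → tdist f' f ≤ 3 * ℓ' + 4 → flux g.A f' = 1) →
    ∀ (h h' β Λ ρ : ℝ), 0 < h → 0 < h' → 0 < β → 1 ≤ Λ → 0 < ρ → ρ ≤ 1 / 2 →
    C * h' ^ 2 * ℓ ≤ ρ ^ 2 * h ^ 2 * ℓ' → C * h' ≤ Λ * h → ∀ (X : Finset g.P),
    (∀ z ∈ X, tdist z f ≤ ℓ') → ∀ F ∈ g.sub X, g.noF F = 0 →
    g.pn ℓ' h' β X F ≤ 4 * Λ * ρ * g.pn ℓ h β X F := by
  obtain ⟨b, hb, h1⟩ := exists_sing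
  refine ⟨4 * b ^ 2, by nlinarith, fun g hA ℓ ℓ' hℓ hl h256 hM f hf hsep h h' β Λ ρ hh hh' hβ hΛ
    hρ hρ1 hk1 hk2 X hX F hF h0 => pn_le (by omega) hh' hβ hF fun r hr => ?_⟩
  set κ := ρ * h / (2 * h') with hκ
  have hκ0 : 0 ≤ κ := by positivity
  have hκ1 : h' * κ = ρ * h / 2 := by rw [hκ]; field_simp
  obtain ⟨u, hu⟩ := h1 g.M g.A hA f ℓ ℓ' hℓ hl h256 hM hf hsep κ (by
    rw [hκ, div_pow, div_mul_eq_mul_div, le_div_iff₀ (by positivity)]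
    nlinarith)
  refine opn_affine_small (adm hℓ hh hβ X) (g.ex u) (g.ex (cnr f)) (prB g) (sub_loc hF)
    (map_prB h0) (map_rank_one_eq_zero hF h0 _ _) r hΛ hρ hρ1 fun p hp => ?_
  rcases cons_cases hp with ⟨z, hz, δ, c, s1, hc, hd, rfl⟩ | ⟨k, i, hy, rfl⟩
  · dsimp only
    rw [prB_ex, opn_Psi_zero, sub_zero, zero_add, ex_dot]
    obtain ⟨b1, b2⟩ := Sing.bound hℓ hl hh' hr (by linarith) hκ0 hu hz (hX z hz) s1 hc hd
    have b3 : |δ ⬝ᵥ u| * opn (r.Ψ (g.ex (cnr f))) / Λ ≤ h / 2 * c := by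
      rw [div_le_iff₀ (by linarith)]
      refine b2.trans ?_
      have : h' * b ^ 2 ≤ h / 2 * Λ := by nlinarith
      nlinarith
    have b4 : opn (r.Ψ (g.ex δ - (δ ⬝ᵥ u) • g.ex (cnr f))) / ρ ≤ h / 2 * c := by
      rw [div_le_iff₀ hρ]
      exact b1.trans_eq (by rw [hκ1]; ring)
    linarith
  · dsimp only
    rw [prB_src, src_dot_ex, sub_self, zero_smul, sub_zero, opn_Psi_zero, zero_div, abs_zero,
      zero_mul, zero_div, add_zero, add_zero]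
    exact In.src hr hy i

end RN

end Vale.Agent.P144Z.W
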