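import Vale.Agent.P144Z.R1.Main
import Vale.Agent.P144D.W.Base

/-!
Port to edge weights.
-/

namespace Vale.Agent.P144Z.W

open Finset Matrix Filter Topology

set_option linter.unusedSectionVars false

set_option linter.unusedVariables false

namespace R1

open Vale.Agent.P144Z.R1

open RN

section gen

variable {S : Type} [Fintype S] [DecidableEq S]

end gen

variable {g : Geo}

end R1

namespace Geo

open Vale.Agent.P144Z.Geo

section R1

variable {g : Geo} {ℓ ℓ' : ℕ} {h h' β β' : ℝ} {X Y : Finset g.P} {F : g.E}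

theorem adm_cons (hA : IsW g.A) (hℓ : 1 ≤ ℓ) (hh : 0 < h) (hβ : 0 < β) (X : Finset g.P) :
    Adm (g.cons ℓ h β X) (g.gens X) := RN.adm hℓ hh hβ X

theorem exists_locSys (hA : IsW g.A) (hℓ : 1 ≤ ℓ) (hh : 0 < h) (hβ : 0 < β) :
    ∃ 𝓛 : LocSys g.P g.E, 𝓛.sub = g.sub ∧ 𝓛.p = g.pn ℓ h β := ⟨RN.locSys g hℓ hh hβ, rfl, rfl⟩

end R1

end Geo

end Vale.Agent.P144Z.W
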