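import Vale.Agent.P144Z.R2.Main
import Vale.Agent.P144D.W.Exp

/-!
Port to edge weights.
-/

namespace Vale.Agent.P144Z.W

open Finset Matrix Filter Topology

namespace R2

open Vale.Agent.P144Z.R2

section An

variable {M : ℕ} [NeZero M]

end An

section Src

variable {S : Type} [Fintype S] [DecidableEq S]

end Src

variable {g : Geo}

end R2

namespace Geo

open Vale.Agent.P144Z.Geo

/-- One integration with a covariance of range `ℓ'`. -/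
theorem step_cl (τ : ℝ) (hτ : 1 ≤ τ) (𝓛 : ℕ) : ∃ C : ℝ, 1 ≤ C ∧ ∀ g : Geo, IsW g.A →
    ∀ ℓ ℓ' : ℕ, 1 ≤ ℓ → 4 * ℓ ≤ ℓ' → ℓ' ≤ 𝓛 * ℓ →
    ∀ Cm : Matrix (Tor g.M × Fin 4) (Tor g.M × Fin 4) ℝ, Cmᵀ = -Cm →
    (∀ s s', ℓ' < tdist s.1 s'.1 → Cm s s' = 0) → ∀ c h β : ℝ, GramLe (Dm g.A) Cm ℓ c → 0 ≤ c →
    4 * c ≤ h → 0 < h → 0 < β →
    (∀ U, ∀ F ∈ g.sub U, g.pn ℓ (h / 2) β U (evG (g.exM Cm) F) ≤ g.pn ℓ h β U F) ∧
    ∀ H H' : Finset g.P → g.E, H ∅ = 0 → H' ∅ = 0 → (∀ X, H X ∈ g.sub X) → (∀ X, H' X ∈ g.sub X) →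
    ∀ ε ε' : ℝ, C * ε ≤ 1 → Anch ℓ τ (fun X => g.pn ℓ h β X (H X)) ε →
      Anch ℓ τ (fun X => g.pn ℓ h β X (H' X)) ε →
      Anch ℓ τ (fun X => g.pn ℓ h β X (H X - H' X)) ε' →
      NormedSpace.exp (∑ U, Cl (evG (g.exM Cm)) H U) =
        evG (g.exM Cm) (NormedSpace.exp (∑ X, H X)) ∧
      Anch ℓ' (2 * τ) (fun U => g.pn ℓ (h / 2) β U ((Cl (evG (g.exM Cm)) H U - evG (g.exM Cm) (H U))
        - (Cl (evG (g.exM Cm)) H' U - evG (g.exM Cm) (H' U)))) (C * ε * ε') ∧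
      Anch ℓ' (2 * τ) (fun U => g.pn ℓ (h / 2) β U
        (Cl (evG (g.exM Cm)) H U - Cl (evG (g.exM Cm)) H' U)) (C * ε') := by
  obtain ⟨D, hD⟩ : ∃ D : ℝ, D = 50 * ((𝓛 : ℝ) + 1) ^ 2 * Real.exp (2 * τ + 2) := ⟨_, rfl⟩
  have hD1 : 1 ≤ D := by
    have h1 : (1 : ℝ) ≤ ((𝓛 : ℝ) + 1) ^ 2 :=
      one_le_pow₀ (le_add_of_nonneg_left (Nat.cast_nonneg _))
    have h2 : 1 ≤ Real.exp (2 * τ + 2) := Real.one_le_exp (by linarith)
    rw [hD]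
    exact one_le_mul_of_one_le_of_one_le (by linarith) h2
  refine ⟨1000 * D ^ 2, by nlinarith, fun g _ ℓ ℓ' hℓ h4 hL Cm hC hr c h β hG hc hch hh hβ => ?_⟩
  have h1 : 1 ≤ ℓ' := by omega
  have hh2 : 0 < h / 2 := half_pos hh
  have hhc : h / 2 + 2 * c ≤ h := by linarith
  have hpn : ∀ U, ∀ F ∈ g.sub U, g.pn ℓ (h / 2) β U (evG (g.exM Cm) F) ≤ g.pn ℓ h β U F :=
    fun U F hF => RN.pn_evG hC hℓ hG hc hh2 hhc hβ hF
  refine ⟨hpn, fun H H' h0 h0' hH hH' ε ε' hε hA hA' hd => ?_⟩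
  have hE := RN.isExp_evG hC hℓ hG hc hh hh2 hhc hβ (RN.szAt g.M ℓ' h1)
    fun s s' hs => hr s s' (not_le.1 hs)
  have hq : (ℓ' : ℝ) ≤ ((𝓛 : ℝ) + 1) * ℓ := by
    have : ℓ' ≤ (𝓛 + 1) * ℓ := hL.trans (Nat.mul_le_mul_right _ (Nat.le_succ _))
    exact_mod_cast this
  have hε0 : 0 ≤ ε := G.anch_nonneg (fun _ => RN.pn_nonneg _) hA
  have hε0' : 0 ≤ ε' := G.anch_nonneg (fun _ => RN.pn_nonneg _) hd
  have l1 := R2.le_of_anch hℓ h4 h1 hτ hq (fun _ => RN.pn_nonneg _) hA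
  have l2 := R2.le_of_anch hℓ h4 h1 hτ hq (fun _ => RN.pn_nonneg _) hA'
  have l3 := R2.le_of_anch hℓ h4 h1 hτ hq (fun _ => RN.pn_nonneg _) hd
  rw [← hD] at l1 l2 l3
  have hτ2 : 0 ≤ 2 * τ := by linarith
  have hDε : D * ε ≤ 1 / 48 := by nlinarith [mul_nonneg (zero_le_one.trans hD1) hε0]
  have m1 := cl_main exp_ev_injective _ _ _ le_rfl hτ2 hE h0 hH (by linarith) l1
  have m2 := R2.anch_of_le h1 hτ2 (fun _ => RN.pn_nonneg _)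
    (cl_rem exp_ev_injective _ _ _ le_rfl hτ2 hE h0 h0' hH hH' hDε l1 l2 l3)
  have m3 := R2.anch_of_le h1 hτ2 (fun _ => RN.pn_nonneg _)
    (R2.le_mono (fun _ => RN.pn_nonneg _) l3 (by linarith))
  have e : 1000 * (D * ε) * (D * ε') = 1000 * D ^ 2 * ε * ε' := by ring
  rw [e] at m2
  refine ⟨?_, m2, R2.anch_mono (R2.anch_add m2 m3) (fun U => ?_) ?_⟩
  · have := m1.2.2.2 univ
    rwa [powerset_univ] at this
  · have e2 : Cl (evG (g.exM Cm)) H U - Cl (evG (g.exM Cm)) H' U =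
        ((Cl (evG (g.exM Cm)) H U - evG (g.exM Cm) (H U))
          - (Cl (evG (g.exM Cm)) H' U - evG (g.exM Cm) (H' U))) + evG (g.exM Cm) (H U - H' U) := by
      rw [map_sub]; ring
    rw [e2]
    exact (RN.pn_add hℓ hh2 hβ _ _).trans
      (add_le_add le_rfl (hpn U _ (sub_mem (hH U) (hH' U))))
  · have := mul_le_mul_of_nonneg_right hε hε0'
    have h3 : 1 + D ≤ 1000 * D ^ 2 := by nlinarith
    have := mul_le_mul_of_nonneg_right h3 hε0'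
    linarith

end Geo

end Vale.Agent.P144Z.W
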