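import Vale.Agent.P144Z.RN.Shr
import Vale.Agent.P144D.W.Est

/-!
Port to edge weights.
-/

namespace Vale.Agent.P144Z.W.RN

open Vale.Agent.P144Z.RN

open Finset Matrix

set_option linter.unusedSectionVars false

section shr

variable {M : ℕ} [NeZero M]

theorem shr_flat : ∃ C : ℝ, 1 ≤ C ∧ ∀ (M : ℕ) [NeZero M] (A : Gauge M), IsW A →
    ∀ (z : Tor M) (ℓ ℓ' : ℕ), 1 ≤ ℓ → 2 * ℓ ≤ ℓ' → 2 * ℓ' + 11 ≤ M → Flat A z ℓ' →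
    ∀ κ : ℝ, C * ℓ ≤ κ ^ 2 * ℓ' → Shr A ℓ ℓ' z κ := by
  obtain ⟨C, hC, h1⟩ := bulk_est
  refine ⟨C, hC, fun M _ A hA z ℓ ℓ' hℓ hl hM hF κ hκ => ?_⟩
  refine shr_of (fun u => (h1 M A hA z ℓ ℓ' hℓ hl hM hF u).trans ?_) (sq_ratio (by omega) hκ)
  exact mul_le_mul_of_nonneg_left (hsq_mono A (Nat.cast_nonneg _) le_rfl
    (E3.ball_mono z (by omega)) u) (by positivity)

end shr

variable {g : Geo} {ℓ ℓ' : ℕ} {h h' β β' : ℝ} {X Y : Finset g.P}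

end Vale.Agent.P144Z.W.RN
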