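import Vale.Agent.P144Z.R4a.Main
import Vale.Agent.P144D.W.Shr
import Vale.Agent.P144D.W.R1

/-!
Port to edge weights.
-/

namespace Vale.Agent.P144Z.W

open Finset Matrix Filter Topology

namespace R4a

open Vale.Agent.P144Z.R4a

open Vale.Agent.P144Z.RN hiding isExp_covP isExp_covL shr_flat

open Vale.Agent.P144Z.W.RN

end R4a

namespace Geo

open Vale.Agent.P144Z.Geo

section R4

/-- Change of scale in a flat region. -/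
theorem sch_flat : ∃ C : ℝ, 1 ≤ C ∧ ∀ g : Geo, IsW g.A → ∀ ℓ ℓ' : ℕ, 1 ≤ ℓ → 2 * ℓ ≤ ℓ' →
    2 * ℓ' + 11 ≤ g.M → ∀ z, Flat g.A z ℓ' → g.Sch ℓ ℓ' (C * √((ℓ : ℝ) / ℓ')) z := by
  obtain ⟨C, hC, h1⟩ := RN.shr_flat
  refine ⟨C, hC, fun g hA ℓ ℓ' hℓ hl hM z hz => h1 g.M g.A hA z ℓ ℓ' hℓ hl hM hz _ ?_⟩
  have l2 : (0 : ℝ) < ℓ' := by exact_mod_cast (by omega : 0 < ℓ')
  rw [mul_pow, Real.sq_sqrt (by positivity), mul_assoc, div_mul_cancel₀ _ l2.ne']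
  exact mul_le_mul_of_nonneg_right (by nlinarith) (Nat.cast_nonneg ℓ)

end R4

end Geo

end Vale.Agent.P144Z.W
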