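import Vale.Agent.P144D.W.Flux

/-!
Change of scale when the fields are of rank one up to a small error.
-/

namespace Vale.Agent.P144Z.W

open Finset Matrix

section

variable {M : ℕ} [NeZero M]

theorem hsq_expand (A : Gauge M) (ρ : ℝ) (z : Tor M) (r : ℕ) (u : Tor M × Fin 4 → ℝ) :
    ∃ v, SuppIn v z (r + 4) ∧ ∀ (w : Tor M × Fin 4 → ℝ) (t : ℝ), hsq A ρ (ball z r) (w - t • u)
      = hsq A ρ (ball z r) w - 2 * t * (v ⬝ᵥ w) + t ^ 2 * hsq A ρ (ball z r) u := by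
  refine ⟨∑ k ∈ range 5, (ρ ^ (2 * k) * (-1) ^ k) • ((Dm A ^ k) *ᵥ fun s =>
    if s.1 ∈ ball z r then ((Dm A ^ k) *ᵥ u) s else 0), fun s hs => ?_, fun w t => ?_⟩
  · rw [Finset.sum_apply]
    refine sum_eq_zero fun k hk => ?_
    rw [mem_range] at hk
    rw [Pi.smul_apply, supp_pow A (f := z) (r := r) (fun s hs => if_neg fun h => ?_) k s
      (by omega), smul_zero]
    exact absurd (E3.mem_ball.1 h) (not_le.2 hs)
  · unfold hsq
    rw [sum_dotProduct, mul_sum, mul_sum, ← sum_sub_distrib, ← sum_add_distrib]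
    refine sum_congr rfl fun k _ => ?_
    have e : (Dm A ^ k)ᵀ = ((-1 : ℝ) ^ k) • Dm A ^ k := by
      rw [transpose_pow, C.Dm_anti, ← neg_one_smul ℝ (Dm A), smul_pow]
    have e1 : ∀ y : Tor M × Fin 4 → ℝ, (-1) ^ k * ((Dm A ^ k *ᵥ y) ⬝ᵥ w)
        = y ⬝ᵥ (Dm A ^ k *ᵥ w) := fun y => by
      rw [dotProduct_mulVec, ← mulVec_transpose, e, smul_mulVec, smul_dotProduct, smul_eq_mul]
    rw [smul_dotProduct, smul_eq_mul, mul_assoc (ρ ^ (2 * k)), e1, mulVec_sub, mulVec_smul]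
    generalize Dm A ^ k *ᵥ w = a
    generalize Dm A ^ k *ᵥ u = b
    have e2 : (fun s : Tor M × Fin 4 => if s.1 ∈ ball z r then b s else 0) ⬝ᵥ a
        = ∑ x ∈ ball z r, ∑ i, b (x, i) * a (x, i) := by
      rw [dotProduct, Fintype.sum_prod_type, ← sum_subset (subset_univ (ball z r))
        fun x _ hx => by simp [hx]]
      exact sum_congr rfl fun x hx => by simp [hx]
    have e3 : l2sq (ball z r) (a - t • b) = l2sq (ball z r) a
        - 2 * t * ∑ x ∈ ball z r, ∑ i, b (x, i) * a (x, i) + t ^ 2 * l2sq (ball z r) b := by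
      unfold l2sq
      rw [mul_sum, mul_sum, ← sum_sub_distrib, ← sum_add_distrib]
      refine sum_congr rfl fun x _ => ?_
      rw [mul_sum, mul_sum, ← sum_sub_distrib, ← sum_add_distrib]
      refine sum_congr rfl fun i _ => ?_
      rw [Pi.sub_apply, Pi.smul_apply, smul_eq_mul]
      ring
    rw [e2, e3]
    ring

/-- The orthogonal projection on a line for the Sobolev norm. -/
theorem hsq_proj (A : Gauge M) (ρ : ℝ) (z : Tor M) (r : ℕ) (u : Tor M × Fin 4 → ℝ) :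
    ∃ d, SuppIn d z (r + 4) ∧ ∀ w : Tor M × Fin 4 → ℝ,
      (d ⬝ᵥ w) ^ 2 * hsq A ρ (ball z r) u ≤ hsq A ρ (ball z r) w ∧
      ∀ t : ℝ, hsq A ρ (ball z r) (w - (d ⬝ᵥ w) • u) ≤ hsq A ρ (ball z r) (w - t • u) := by
  obtain ⟨v, v1, v2⟩ := hsq_expand A ρ z r u
  have n : ∀ w, 0 ≤ hsq A ρ (ball z r) w := fun w => E4.hsq_nonneg A _ w
  refine ⟨(hsq A ρ (ball z r) u)⁻¹ • v, RN.SuppIn.smul v1 _, fun w => ?_⟩
  rw [smul_dotProduct, smul_eq_mul]
  have n1 := fun t : ℝ => n (w - t • u)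
  simp only [v2] at n1 ⊢
  generalize v ⬝ᵥ w = a at n1 ⊢
  have n2 := n w
  generalize hsq A ρ (ball z r) w = b at n1 n2 ⊢
  rcases (n u).eq_or_lt with h | h
  · rw [← h] at n1 ⊢
    have a0 : a = 0 := by
      by_contra h0
      have := n1 ((b + 1) / (2 * a))
      have e : 2 * ((b + 1) / (2 * a)) * a = b + 1 := by field_simp
      linarith
    simp [a0, n2]
  · generalize hsq A ρ (ball z r) u = q at n1 h ⊢
    obtain ⟨s, rfl⟩ : ∃ s, a = q * s := ⟨q⁻¹ * a, by field_simp⟩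
    rw [inv_mul_cancel_left₀ h.ne']
    exact ⟨by nlinarith [n1 s], fun t => by nlinarith [mul_nonneg h.le (sq_nonneg (t - s))]⟩

end

namespace RN

open Vale.Agent.P144Z.RN

/-- Change of scale with a gain for fields that are of rank one up to a small error. -/
theorem pn_rk {g : Geo} {ℓ ℓ' r : ℕ} {h h' β a κ : ℝ} {X : Finset g.P} (hℓ : 1 ≤ ℓ) (hh : 0 < h)
    (hh' : 0 < h') (hβ : 0 < β) (hκ : 0 < κ) (ha : κ ≤ a) (hk : 6 * (h' * a) ≤ h) {y : g.P}
    (hX : ∀ z ∈ X, tdist z y + 2 * ℓ ≤ r ∧ tdist z y + r + 4 ≤ ℓ') {u : Tor g.M × Fin 4 → ℝ}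
    (h1 : ∀ z ∈ X, ∀ w, hsq g.A ℓ (ball y r) w * ℓ' ≤ a ^ 2 * ℓ * hsq g.A ℓ' (ball z (2 * ℓ')) w)
    (h2 : ∀ z ∈ X, ∀ w, ∃ t : ℝ, hsq g.A ℓ (ball y r) (w - t • u) * ℓ'
      ≤ κ ^ 2 * ℓ * hsq g.A ℓ' (ball z (2 * ℓ')) w) (hl : ℓ ≤ ℓ')
    {F : g.E} (hF : F ∈ g.sub X) (h0 : g.noF F = 0) :
    g.pn ℓ' h' β X F ≤ 36 * (h' / h) ^ 2 * a * κ * g.pn ℓ h β X F := by
  have a0 : 0 < a := hκ.trans_le ha
  have l0 : (0 : ℝ) < ℓ := by exact_mod_cast hℓ
  have k0 : 0 < 3 * (h' * a) := by positivity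
  obtain ⟨d, d1, d2⟩ := hsq_proj g.A ℓ y r u
  have s1 : g.pn ℓ (3 * (h' * a)) β X F ≤ 2 * (3 * (h' * a) / h) ^ 2 * g.pn ℓ h β X F :=
    pn_small (κ := 1) hℓ le_rfl hh k0 hβ le_rfl subset_rfl zero_le_one
      (fun z _ => shr_triv _ le_rfl z (by simp)) (by positivity)
      (by rw [div_le_iff₀ hh]; linarith) (by rw [div_mul_cancel₀ _ hh.ne', mul_one]) hF h0
  have s2 : g.pn ℓ' h' β X F ≤ 4 * 1 * (κ / (2 * a)) * g.pn ℓ (3 * (h' * a)) β X F := by
    refine pn_le (hℓ.trans hl) hh' hβ hF fun ρ hr => ?_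
    refine opn_affine_small (adm hℓ k0 hβ X) (g.ex u) (g.ex d) (prB g) (sub_loc hF)
      (map_prB h0) (map_rank_one_eq_zero hF h0 _ _) ρ le_rfl (by positivity)
      (by rw [div_le_iff₀ (by positivity)]; linarith) fun p hp => ?_
    rcases cons_cases hp with ⟨z, hz, δ, c, s1, hc, hd, rfl⟩ | ⟨k, i, hy, rfl⟩
    · dsimp only
      rw [prB_ex, opn_Psi_zero, sub_zero, zero_add, ex_dot, div_one]
      obtain ⟨x1, x2⟩ := hX z hz
      have e0 : SuppIn d z ℓ' := SuppIn.mono d1 (by rw [tdist_comm]; omega)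
      have e1 : ∀ w, hsq g.A ℓ (ball z (2 * ℓ)) w ≤ hsq g.A ℓ (ball y r) w := fun w =>
        E4.hsq_mono _ l0.le le_rfl (E4.ball_sub x1) w
      have b1 : opn (ρ.Ψ (g.ex δ - (δ ⬝ᵥ u) • g.ex d)) ≤ h' * (c * κ) := by
        rw [← ex_smul, ← ex_sub]
        refine In.fld hr hz (SuppIn.sub (SuppIn.mono s1 (by rw [tdist_self]; omega))
          (SuppIn.smul e0 _)) (by positivity) (Dom.transfer hℓ hd fun w =>
            ⟨w - (d ⬝ᵥ w) • u, ?_, ?_⟩)
        · rw [sub_dotProduct, smul_dotProduct, dotProduct_sub, dotProduct_smul, smul_eq_mul,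
            smul_eq_mul, mul_comm]
        · obtain ⟨t, ht⟩ := h2 z hz w
          exact (mul_le_mul_of_nonneg_right ((e1 _).trans ((d2 w).2 t))
            (Nat.cast_nonneg _)).trans ht
      have b2 : |δ ⬝ᵥ u| * opn (ρ.Ψ (g.ex d)) ≤ h' * (c * a) := by
        rw [← A3.opn_smul, ← map_smul, ← ex_smul]
        refine In.fld hr hz (SuppIn.smul e0 _) (by positivity) fun w => ?_
        have e2 := mul_le_mul_of_nonneg_left ((d2 w).1) (sq_nonneg c)
        have e3 := mul_le_mul_of_nonneg_left ((hd u).trans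
          (mul_le_mul_of_nonneg_left (e1 u) (sq_nonneg c))) (sq_nonneg (d ⬝ᵥ w))
        have e4 := mul_le_mul_of_nonneg_left (h1 z hz w) (sq_nonneg c)
        have e5 : (d ⬝ᵥ w) ^ 2 * ((δ ⬝ᵥ u) ^ 2 * ℓ) * ℓ'
            ≤ c ^ 2 * hsq g.A ℓ (ball y r) w * ℓ' :=
          mul_le_mul_of_nonneg_right (by linarith) (Nat.cast_nonneg _)
        rw [smul_dotProduct, smul_eq_mul]
        refine le_of_mul_le_mul_right ?_ l0
        linarith
      have b3 : opn (ρ.Ψ (g.ex δ - (δ ⬝ᵥ u) • g.ex d)) / (κ / (2 * a)) ≤ 2 * (h' * (c * a)) := by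
        rw [div_le_iff₀ (by positivity)]
        exact b1.trans_eq (by field_simp)
      linarith
    · dsimp only
      rw [prB_src, src_dot_ex, sub_self, zero_smul, sub_zero, opn_Psi_zero, zero_div, abs_zero,
        zero_mul, zero_div, add_zero, add_zero]
      exact In.src hr hy i
  exact s2.trans ((mul_le_mul_of_nonneg_left s1 (by positivity)).trans_eq (by field_simp; ring))

end RN

end Vale.Agent.P144Z.W
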