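import Vale.Agent.P144D.W.Cor
import Vale.Agent.P144Z.R3W.Main
import Vale.Agent.P144Z.I2.Flow
import Vale.Agent.P144Z.I2.Part

/-!
The corrected flow is well formed and preserves the generating function.
-/

namespace Vale.Agent.P144Z.W

open Finset Matrix

namespace R3W

open Vale.Agent.P144Z.R3W

variable {g : Geo} {c : Cor g.M}

theorem put_ne (hg : g.OkW) (k : g.K) : g.put (g.src k).y (g.src k).Y ≠ ∅ :=
  ne_empty_of_mem (self_mem_put _ (hg.src k).zero)

theorem HinC_mem (hg : g.OkW) (hc : c.Ok) (q : Par) (X : Finset g.P) :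
    g.HinC q c X ∈ fsub g X := by
  refine ⟨fun n n' h => ?_, fun n => add_mem (add_mem (Subalgebra.smul_mem _ (one_mem _) _)
    (Subalgebra.sum_mem _ fun k hk => Subalgebra.smul_mem _ (Geo.bv_mem ?_) _))
    (Subalgebra.smul_mem _ (one_mem _) _)⟩
  · unfold Geo.HinC Geo.Hin
    rw [hc.dep X n n' fun e h1 h2 => h e (mem_filter.2 ⟨mem_univ _, h1, h2⟩)]
    congr 2
    · congr 1
      refine sum_congr rfl fun y _ => sum_congr rfl fun B hB => ?_
      rw [spinFn_dep (see_dep ((mem_filter.1 hB).2 ▸ h))]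
    · refine sum_congr rfl fun k hk => ?_
      rw [(hg.src k).dep _ _ (see_dep ((mem_filter.1 hk).2 ▸ h))]
  · exact (mem_filter.1 hk).2 ▸ self_mem_put _ (hg.src k).zero

theorem HinC_empty (hg : g.OkW) (hc : c.Ok) (q : Par) : g.HinC q c ∅ = 0 := by
  funext n
  rw [Geo.HinC, hc.empty, zero_smul, add_zero, Geo.Hin,
    filter_eq_empty_iff.2 fun k _ => put_ne hg k, sum_empty, add_zero,
    sum_eq_zero fun y _ => sum_eq_zero fun B hB => ?_, zero_smul, Pi.zero_apply]
  have h0 : (0, 0) ∈ B := (mem_filter.1 (mem_filter.1 hB).1).2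
  exact absurd (mem_filter.1 hB).2 (ne_empty_of_mem (self_mem_put y
    (mem_hull h0 h0 (by simp) (by simp) (by simp) (by simp))))

theorem W0C_empty (hg : g.OkW) (hc : c.Ok) (q : Par) : g.W0C q c ∅ = 0 :=
  Cl_eq_zero _ (E0_one _) fun X hX => by rw [subset_empty.1 hX, HinC_empty hg hc]

theorem z0_bE_mem (hg : g.OkW) (q : Par) (k : g.K) :
    g.z0 q k • g.bE k ∈ g.sub (g.put (g.src k).y (g.src k).Y) := by
  unfold Geo.z0
  split_ifs with h
  · have h0 := self_mem_put (g.src k).y (hg.src k).zero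
    refine Subalgebra.smul_mem _ (mul_mem (Geo.bv_mem h0) (Geo.edge_mem _ _ h0 ?_)) _
    rw [← prj_uz]
    exact mem_put _ (by rw [((hg.src k).en h).1]; simp)
  · rw [zero_smul]
    exact zero_mem _

end R3W

namespace Geo

open Vale.Agent.P144Z.Geo Vale.Agent.P144Z.R3W R3W

variable {g : Geo} {c : Cor g.M}

theorem W0C_mem (hg : g.OkW) (hc : c.Ok) (q : Par) (U : Finset g.P) : g.W0C q c U ∈ g.sub U :=
  Cl_mem_sub _ (fsub g) g.sub (fun _ _ => fsub_mono) (fun _ _ => sub_mono)
    (fun _ _ h => E0_mem _ h) fun X _ => HinC_mem hg hc q X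

theorem wf_initC (hg : g.OkW) (hc : c.Ok) (q : Par) : g.Wf (g.initC q c) := by
  refine ⟨?_, fun X => ?_, fun X => ?_, fun x => ?_, fun x => (init_v_bil q x).1,
    fun x => (init_v_bil q x).2.1, fun x => (init_v_bil q x).2.2⟩
  · simp only [initC]
    rw [W0C_empty hg hc, map_zero, filter_eq_empty_iff.2 fun k _ => R3W.put_ne hg k, sum_empty,
      sub_zero, sub_zero]
  · exact sub_mem (sub_mem (W0C_mem hg hc q X) (noF_mem (W0C_mem hg hc q X)))
      (Subalgebra.sum_mem _ fun k hk => (mem_filter.1 hk).2 ▸ R3W.z0_bE_mem hg q k)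
  · simp only [initC, map_sub, map_sum, map_smul, noF_noF, noF_bE, smul_zero, sum_const_zero,
      sub_self]
  · exact add_mem (Subalgebra.smul_mem _ (O1_mem x) _) (Subalgebra.smul_mem _ (O2_mem x) _)

theorem wf_flowC (hg : g.OkW) (hc : c.Ok) (L : ℕ) (q : Par) (j : ℕ) :
    g.Wf (g.flowC L q c j) := by
  induction j with
  | zero => exact wf_initC hg hc q
  | succ j ih => exact ih.step _ _ _ _

theorem csC_mem (hg : g.OkW) (hc : c.Ok) (L : ℕ) (q : Par) (j : ℕ) (U : Finset g.P) :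
    g.csC L q c j U ∈ g.sub U ∧ g.noF (g.csC L q c j U) = g.csC L q c j U := by
  cases j with
  | zero => exact ⟨noF_mem (W0C_mem hg hc q U), noF_noF _⟩
  | succ j => exact ⟨noF_mem ((wf_flowC hg hc L q j).Cl_mem (cov_anti _ _) U), noF_noF _⟩

theorem W0_mem (hg : g.OkW) (q : Par) (U : Finset g.P) : g.W0 q U ∈ g.sub U :=
  g.W0C_zero q ▸ W0C_mem hg (Cor.ok_zero _) q U

theorem wf_init (hg : g.OkW) (q : Par) : g.Wf (g.init q) :=
  g.initC_zero q ▸ wf_initC hg (Cor.ok_zero _) q

theorem wf_flow (hg : g.OkW) (L : ℕ) (q : Par) (d : ℕ → ℝ × ℝ) (j : ℕ) :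
    g.Wf (g.flow L q d j) := by
  induction j with
  | zero => exact wf_init hg q
  | succ j ih => exact ih.step _ _ _ _

theorem cs_mem (hg : g.OkW) (L : ℕ) (q : Par) (j : ℕ) (U : Finset g.P) :
    g.cs L q j U ∈ g.sub U ∧ g.noF (g.cs L q j U) = g.cs L q j U :=
  g.csC_zero L q j ▸ csC_mem hg (Cor.ok_zero _) L q j U

theorem free_flow (hg : g.OkW) (L j : ℕ) : g.Free (g.flow L par0 0 j) := by
  induction j with
  | zero =>
    refine ⟨fun X => ?_, fun x => ?_⟩
    · simp only [flow, init, map_sub, map_sum, map_smul, noB_bE, smul_zero, sum_const_zero,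
        sub_zero]
      rw [noB_noF, ← noF_noB, noB_W0, map_zero, sub_zero]
    · simp [flow, init, par0]
  | succ j ih => exact Free.step (wf_flow hg L par0 0 j) ih _ _ _

end Geo

namespace I2

open Vale.Agent.P144Z.I2

variable (g : Geo) (c : Cor g.M)

theorem exp_HinC (q : Par) (n : g.Cfg) : NormedSpace.exp (∑ X, g.HinC q c X) n =
    Real.exp (uint q n + ∑ X, c X n) •
      ∏ k, (1 + (g.src k).O (g.see (g.src k).y n) • g.bv k) := by
  have h : ∑ X, g.HinC q c X n = (uint q n + ∑ X, c X n) • (1 : g.E) +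
      ∑ k, (g.src k).O (g.see (g.src k).y n) • g.bv k := by
    simp only [Geo.HinC, sum_add_distrib, sum_Hin, ← sum_smul, add_smul]
    abel
  rw [exp_pi, Finset.sum_apply, h, exp_add',
    exp_sum_sq _ _ fun k => smul_sq (bv_sq g k) _, ← Algebra.algebraMap_eq_smul_one,
    A2.exp_scalar, ← Algebra.smul_def]

/-- The generating function of the sources. -/
theorem Om_initC (q : Par) (hZ : q.Z ≠ 0) :
    g.Om (NormedSpace.exp (∑ y, (g.init q).v y) *
      g.E0 (q.x * q.Z) (NormedSpace.exp (∑ X, g.HinC q c X))) =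
      q.Z ^ (2 * g.M ^ 2) • ∑ n, (cw n * wt g.A q.x n * Real.exp (uint q n + ∑ X, c X n)) •
        ∏ k, (1 + (g.src k).O (g.see (g.src k).y n) • g.bv k) := by
  have := contour g q.x hZ (NormedSpace.exp (∑ X, g.HinC q c X)) fun n => by
    rw [exp_HinC, map_smul, noF_prod]
    simp only [map_add, map_smul, noF_one, noF_bv]
  simp only [exp_HinC, smul_smul] at this
  exact this

theorem sum_initC (q : Par) : ∑ X, (g.initC q c).H X =
    ∑ U, g.W0C q c U - ∑ U, g.noF (g.W0C q c U) + ∑ y, (g.init q).v y := by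
  have h1 : ∑ X, (g.initC q c).K X =
      ∑ U, g.W0C q c U - ∑ U, g.noF (g.W0C q c U) - ∑ k, g.z0 q k • g.bE k := by
    simp only [Geo.initC, Finset.sum_sub_distrib]
    rw [Finset.sum_fiberwise]
  rw [sum_H, h1]
  change _ + ∑ y, (g.init q).v y + ∑ k, g.z0 q k • g.bE k = _
  abel

theorem noF_csC (L : ℕ) (q : Par) (j : ℕ) (U : Finset g.P) :
    g.noF (g.csC L q c j U) = g.csC L q c j U := by
  cases j <;> exact noF_noF g _

/-- The flow preserves the generating function. -/
theorem flow_eqC {L : ℕ} {q : Par} {N : ℕ} (h : g.ConvC L q c N) :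
    evG (g.exM (covI (Dm g.A))) (NormedSpace.exp (∑ y, (g.init q).v y) *
      g.E0 (q.x * q.Z) (NormedSpace.exp (∑ X, g.HinC q c X))) =
      NormedSpace.exp (∑ j ∈ range (N + 1), ∑ U, g.csC L q c j U) *
        evG (g.exM (covL (Dm g.A) (sc L N))) (NormedSpace.exp (∑ X, (g.flowC L q c N).H X)) := by
  have ha := C.Dm_anti g.A
  obtain ⟨h0, h⟩ := h
  induction N with
  | zero =>
    rw [← evG_src g (covL_anti ha _) (by simp only [noF_exp, map_sum, noF_csC]), ← h0, ← exp_add',
      ← exp_add', show sc L 0 = 8 by simp [sc], covL_eight, Geo.flowC, sum_initC, zero_add,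
      range_one, sum_singleton]
    congr 2
    simp only [Geo.csC]
    abel
  | succ N ih =>
    have hc : g.noF (NormedSpace.exp (∑ U, g.csC L q c (N + 1) U)) =
        NormedSpace.exp (∑ U, g.csC L q c (N + 1) U) := by
      simp only [noF_exp, map_sum, noF_csC]
    rw [ih fun j hj => h j (by omega), covL_split ha (sc L N) (sc L (N + 1)), evG_exM_add,
      ← h N (by omega), sum_range_succ _ (N + 1), exp_add', mul_assoc,
      ← evG_src g (covL_anti ha _) hc, ← exp_add', Geo.flowC, sum_step]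
    congr 3
    simp [Geo.csC, Geo.intg]

end I2

end Vale.Agent.P144Z.W
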